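import Vale.Agent.P269C.Defs

/-!
P269, block C: families with one more marked point, pull back of families, holomorphic maps to the
total space.
-/

set_option autoImplicit false
set_option linter.all false

noncomputable section

namespace Vale.Agent.P269CT

open Set Filter Topology Vale.Agent.P273.H183 Vale.Agent.P272.K Vale.Agent.P269C

variable {L L' : Type} {m k : ℕ}

/-- The family with the constant extra mark `p` (only the fibre through `p` matters). -/
def pt (C : Fam L m) (p : C.X) : Fam (Option L) m :=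
  ⟨C.B, C.X, C.π, C.hol, fun o b => o.elim p fun i => C.s i b⟩

/-- The marks of the fibre through `p`, and `p` itself. -/
def mk (C : Fam L m) (p : C.X) (o : Option L) : C.X := o.elim p fun i => C.s i (C.π p)

/-- `p` is a smooth point of its fibre and not marked. -/
def Gen (C : Fam L m) (p : C.X) : Prop := (∃ z, Co C z p) ∧ ∀ i, C.s i (C.π p) ≠ p

/-- `σ` is holomorphic at `y`. -/
def HolAt (C : Fam L m) (σ : Cm k → C.X) (y : Cm k) : Prop :=
  ContinuousAt σ y ∧ ∀ f, C.hol f (σ y) → AnalyticAt ℂ (fun a => f (σ a)) y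

/-- The metric on the cotangent line at the mark `o` of the fibre through `p` with extra mark `p`. -/
def H (h : ∀ m (C : Fam (Option L) m), Cm m → Option L → (C.X → ℂ) → ℝ) (C : Fam L m) (p : C.X)
    (o : Option L) (z : C.X → ℂ) : ℝ := h m (pt C p) (C.π p) o z

/-- The total space of the pull back. -/
abbrev Tot (C : Fam L m) (W : Set (Cm k)) (φ : Cm k → Cm m) : Type :=
  {x : Cm k × C.X // x.1 ∈ W ∧ C.π x.2 = φ x.1}

/-- Holomorphic functions on the pull back. -/
def tHol (C : Fam L m) (W : Set (Cm k)) (φ : Cm k → Cm m) (f : Tot C W φ → ℂ) (x : Tot C W φ) :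
    Prop := ∃ U u v t, IsChart C.π C.hol U u v t ∧ x.1.2 ∈ U ∧ ∃ g : Cm k × ℂ × ℂ → ℂ,
      AnalyticAt ℂ g (x.1.1, u x.1.2, v x.1.2) ∧ ∀ᶠ q in 𝓝 x, f q = g (q.1.1, u q.1.2, v q.1.2)

open Classical in
/-- The point `(y, p)` of the pull back. -/
def tPt {C : Fam L m} {W : Set (Cm k)} {φ : Cm k → Cm m} (hne : Nonempty (Tot C W φ)) (y : Cm k)
    (p : C.X) : Tot C W φ := if h : y ∈ W ∧ C.π p = φ y then ⟨(y, p), h⟩ else Classical.choice hne

/-- The pull back of `C` by `φ : W → C.B`, with the marks `P o y` in the fibre over `φ y`. -/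
def pbs (C : Fam L m) (W : Set (Cm k)) (φ : Cm k → Cm m) (P : L' → Cm k → C.X)
    (hne : Nonempty (Tot C W φ)) : Fam L' k :=
  ⟨W, Tot C W φ, fun x => x.1.1, tHol C W φ, fun o y => tPt hne y (P o y)⟩

/-- The pull back of `C` by `φ : W → C.B`. -/
def pb (C : Fam L m) (W : Set (Cm k)) (φ : Cm k → Cm m) (hne : Nonempty (Tot C W φ)) : Fam L k :=
  pbs C W φ (fun i y => C.s i (φ y)) hne

theorem tot_ne (C : Fam L m) {W : Set (Cm k)} (σ : Cm k → C.X) (hW : W.Nonempty) :
    Nonempty (Tot C W fun y => C.π (σ y)) := ⟨⟨(hW.some, σ hW.some), hW.some_mem, rfl⟩⟩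

/-- The pull back of `C` by `π ∘ σ`, with the extra mark `σ`. -/
def add (C : Fam L m) (W : Set (Cm k)) (σ : Cm k → C.X) (hW : W.Nonempty) : Fam (Option L) k :=
  pbs C W (fun y => C.π (σ y)) (fun o y => mk C (σ y) o) (tot_ne C σ hW)

/-- Change of labels. -/
def rel (C : Fam L m) (e : L' → L) : Fam L' m := ⟨C.B, C.X, C.π, C.hol, fun i => C.s (e i)⟩

theorem pt_s (C : Fam L m) (p : C.X) (o : Option L) : (pt C p).s o (C.π p) = mk C p o := rfl

theorem mk_none (C : Fam L m) (p : C.X) : mk C p none = p := rfl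

theorem mk_some (C : Fam L m) (p : C.X) (i : L) : mk C p (some i) = C.s i (C.π p) := rfl

end Vale.Agent.P269CT
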