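import Vale.Agent.P269CT.PB
import Vale.Agent.P269C.Spec
import Vale.Agent.P269CK.Hol

/-!
P269, block C: holomorphic maps to the total space; the pull back of a stable family is stable.
-/

set_option autoImplicit false
set_option linter.all false

noncomputable section

namespace Vale.Agent.P269CT

open Set Filter Topology Vale.Agent.P273.H183 Vale.Agent.P272.K Vale.Agent.P269C
open Vale.Agent.P273.H948 Vale.Agent.P273.H949

variable {L L' : Type} {m k n : ℕ} {C : Fam L m} {W : Set (Cm k)} {φ : Cm k → Cm m}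
  {σ : Cm k → C.X} {y : Cm k}

theorem ex_mo (hC : C.IsStable) (p : C.X) : ∃ U u v t, p ∈ U ∧ Mo C U u v t := (sf C hC).model p

theorem HolAt.π (hC : C.IsStable) (h : HolAt C σ y) : AnalyticAt ℂ (fun a => C.π (σ a)) y := by
  obtain ⟨U, u, v, t, hp, hm⟩ := ex_mo hC (σ y)
  exact analyticAt_pi_iff.2 fun i => h.2 _ (hm.hol_π hp i)

theorem HolAt.emap (hC : C.IsStable) (h : HolAt C σ y) {U : Set C.X} {u v : C.X → ℂ}
    {t : Cm m → ℂ} (hm : Mo C U u v t) (hp : σ y ∈ U) :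
    AnalyticAt ℂ (fun a => Emap C.π u v (σ a)) y :=
  (h.π hC).prod ((h.2 _ (hm.hol_u hp)).prod (h.2 _ (hm.hol_v hp)))

/-- A map into a chart with analytic coordinates is holomorphic. -/
theorem holAt_of {U : Set C.X} {u v : C.X → ℂ} {t : Cm m → ℂ} (hm : Mo C U u v t)
    (hU : ∀ᶠ a in 𝓝 y, σ a ∈ U) (ha : AnalyticAt ℂ (fun a => Emap C.π u v (σ a)) y) :
    HolAt C σ y := by
  have hp : σ y ∈ U := hU.self_of_nhds
  have hc : ContinuousAt σ y := by
    refine (Filter.map_le_map_iff_of_injOn (l₁ := map σ (𝓝 y)) (l₂ := 𝓝 (σ y)) (s := U) hU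
      (hm.isOpen.mem_nhds hp) hm.inj).1 ?_
    rw [hm.nhds _ hp, Filter.map_map]
    refine tendsto_nhdsWithin_iff.2 ⟨ha.continuousAt, ?_⟩
    filter_upwards [hU] with a h1
    exact hm.eqn _ h1
  refine ⟨hc, fun f hf => ?_⟩
  obtain ⟨g, hg, e⟩ := (hm.hol _ hp f).1 hf
  refine (AnalyticAt.comp (g := g) (f := fun a => Emap C.π u v (σ a)) hg ha).congr ?_
  filter_upwards [hc.eventually e] with a h1
  exact h1.symm

theorem HolAt.ev (hC : C.IsStable) (h : HolAt C σ y) : ∀ᶠ a in 𝓝 y, HolAt C σ a := by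
  obtain ⟨U, u, v, t, hp, hm⟩ := ex_mo hC (σ y)
  have h1 : ∀ᶠ a in 𝓝 y, σ a ∈ U := h.1 (hm.isOpen.mem_nhds hp)
  filter_upwards [h1.eventually_nhds, (h.emap hC hm hp).eventually_analyticAt] with a h2 h3
  exact holAt_of hm h2 h3

theorem HolAt.comp {ψ : Cm n → Cm k} {x : Cm n} (h : HolAt C σ (ψ x)) (hψ : AnalyticAt ℂ ψ x) :
    HolAt C (fun a => σ (ψ a)) x :=
  ⟨ContinuousAt.comp (f := ψ) h.1 hψ.continuousAt,
    fun f hf => AnalyticAt.comp (g := fun a => f (σ a)) (h.2 f hf) hψ⟩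

theorem HolAt.congr {σ' : Cm k → C.X} (h : HolAt C σ y) (e : σ' =ᶠ[𝓝 y] σ) : HolAt C σ' y := by
  refine ⟨h.1.congr e.symm, fun f hf => ?_⟩
  rw [e.self_of_nhds] at hf
  refine (h.2 f hf).congr ?_
  filter_upwards [e] with a h1
  rw [h1]

theorem π_s (hC : C.IsStable) {b : Cm m} (hb : b ∈ C.B) (i : L) : C.π (C.s i b) = b :=
  ((hC.2.2.2.2.2 b hb).2.1 i).1

theorem holAt_s (hC : C.IsStable) {b : Cm m} (hb : b ∈ C.B) (i : L) : HolAt C (C.s i) b :=
  ⟨((hC.2.2.2.2.2 b hb).2.1 i).2.1, ((hC.2.2.2.2.2 b hb).2.1 i).2.2.1⟩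

theorem s_inj (hC : C.IsStable) {b : Cm m} (hb : b ∈ C.B) {i j : L} (e : C.s i b = C.s j b) :
    i = j := ((hC.2.2.2.2.2 b hb).2.1 i).2.2.2.1 j e

theorem sp_s (hC : C.IsStable) {b : Cm m} (hb : b ∈ C.B) (i : L) : Sp C (C.s i b) :=
  ((hC.2.2.2.2.2 b hb).2.1 i).2.2.2.2

theorem π_mk (hC : C.IsStable) (p : C.X) (o : Option L) : C.π (mk C p o) = C.π p := by
  cases o with
  | none => rfl
  | some i => exact π_s hC (hC.2.2.1 p) i

theorem HolAt.mk (hC : C.IsStable) (h : HolAt C σ y) (o : Option L) :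
    HolAt C (fun a => mk C (σ a) o) y := by
  cases o with
  | none => exact h
  | some i => exact (holAt_s hC (hC.2.2.1 _) i).comp (h.π hC)

theorem Gen.sp {p : C.X} (h : Gen C p) : Sp C p := by
  obtain ⟨z, hz⟩ := h.1
  intro U x y t hU hp
  exact P269CK.Co.chart hz (mo_of hU) hp

theorem ex_co (hC : C.IsStable) {p : C.X} (h : Sp C p) : ∃ z, C.hol z p ∧ Co C z p := by
  obtain ⟨U, u, v, t, hp, hm⟩ := ex_mo hC p
  exact P269CK.exists_co (P273SD.sm_of_mod hm hp (h U u v t hm.chart hp))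

theorem gen_iff (hC : C.IsStable) {p : C.X} : Gen C p ↔ Sp C p ∧ ∀ i, C.s i (C.π p) ≠ p :=
  ⟨fun h => ⟨h.sp, h.2⟩, fun h => ⟨(ex_co hC h.1).imp fun _ h => h.2, h.2⟩⟩

theorem Gen.sp_mk (hC : C.IsStable) {p : C.X} (h : Gen C p) (o : Option L) : Sp C (mk C p o) := by
  cases o with
  | none => exact h.sp
  | some i => exact sp_s hC (hC.2.2.1 p) i

theorem Gen.mk_inj (hC : C.IsStable) {p : C.X} (h : Gen C p) {o o' : Option L}
    (e : mk C p o = mk C p o') : o = o' := by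
  cases o with
  | none =>
    cases o' with
    | none => rfl
    | some j => exact absurd e.symm (h.2 j)
  | some i =>
    cases o' with
    | none => exact absurd e (h.2 i)
    | some j => rw [s_inj hC (hC.2.2.1 p) e]

theorem isOpen_sp (hC : C.IsStable) : IsOpen {p | Sp C p} := by
  have : {p | Sp C p} = {p | (sf C hC).SmoothAt p} := by
    ext p
    refine ⟨fun h => ?_, fun h U x y t hU hp => h.all hp (mo_of hU)⟩
    obtain ⟨U, u, v, t, hp, hm⟩ := ex_mo hC p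
    exact ⟨U, u, v, t, hp, hm, h U u v t hm.chart hp⟩
  rw [this]
  exact (sf C hC).smoothAt_open

theorem ev_ne_s (hC : C.IsStable) {p : C.X} {i : L} (h : C.s i (C.π p) ≠ p) :
    ∀ᶠ q in 𝓝 p, C.s i (C.π q) ≠ q := by
  have := hC.2.1
  have h1 : ContinuousAt (fun q => (C.s i (C.π q), q)) p :=
    (ContinuousAt.comp (f := C.π) (holAt_s hC (hC.2.2.1 p) i).1
      (cont_π hC).continuousAt).prodMk continuousAt_id
  exact h1 (isClosed_diagonal.isOpen_compl.mem_nhds h)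

theorem isOpen_gen [Finite L] (hC : C.IsStable) : IsOpen {p | Gen C p} := by
  rw [isOpen_iff_mem_nhds]
  intro p hp
  filter_upwards [(isOpen_sp hC).mem_nhds hp.sp,
    eventually_all.2 fun i => ev_ne_s hC (hp.2 i)] with q h1 h2
  exact (gen_iff hC).2 ⟨h1, h2⟩

namespace PD

variable (h : PD C W φ)

theorem smooth {x : Tot C W φ} (hx : Sp C x.1.2) : h.S.SmoothAt x := by
  obtain ⟨U, u, v, t, hp, hm⟩ := ex_mo h.st x.1.2
  exact ⟨_, _, _, _, hp, tot_model h.op h.an hm, hx U u v t hm.chart hp⟩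

theorem sec (hne : Nonempty (Tot C W φ)) {P : Cm k → C.X}
    (hP : ∀ y ∈ W, HolAt C P y ∧ C.π (P y) = φ y) : IsSec h.S W fun y => tPt hne y (P y) := by
  intro y hy
  have e : ∀ᶠ a in 𝓝 y, (tPt hne a (P a)).1 = (a, P a) := by
    filter_upwards [h.op.mem_nhds hy] with a ha
    exact tPt_val ha (hP a ha).2
  have e0 := e.self_of_nhds
  have hc : ContinuousAt (fun y => tPt hne y (P y)) y := by
    refine IsInducing.subtypeVal.continuousAt_iff.2 ?_
    exact (continuousAt_id.prodMk (hP y hy).1.1).congr (EventuallyEq.symm e)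
  refine ⟨congrArg Prod.fst e0, hc, ?_⟩
  rintro f ⟨U, u, v, t, hU, hp, g, hg, e1⟩
  rw [e0] at hp hg
  have h1 : AnalyticAt ℂ (fun a => (a, u (P a), v (P a))) y := analyticAt_id.prod
    (((hP y hy).1.2 _ ((mo_of hU).hol_u hp)).prod ((hP y hy).1.2 _ ((mo_of hU).hol_v hp)))
  refine (AnalyticAt.comp (g := g) (f := fun a => (a, u (P a), v (P a))) hg h1).congr ?_
  filter_upwards [hc.eventually e1, e] with a h2 h3
  rw [h2, h3]; rfl

include h in
theorem noField {P : L' → Cm k → C.X} (hne : Nonempty (Tot C W φ)) (hy : y ∈ W)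
    (hP : ∀ o, C.π (P o y) = φ y) (hs : ∀ i, ∃ o, P o y = C.s i (φ y)) :
    ∀ D, (pbs C W φ P hne).IsField y D → ∀ p ∈ (pbs C W φ P hne).fib y, ∀ f,
      (pbs C W φ P hne).hol f p → D f p = 0 := by
  refine (h.fb P hne hy).noField (fun i => ?_) (h.st.2.2.2.2.2 _ (h.mem y hy)).2.2
  obtain ⟨o, ho⟩ := hs i
  have e := tPt_val (hne := hne) hy (hP o)
  exact ⟨o, congrArg Prod.fst e, (congrArg Prod.snd e).trans ho⟩

include h in
/-- The pull back with distinct smooth marks, among them the old ones, is stable. -/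
theorem stable {P : L' → Cm k → C.X} (hne : Nonempty (Tot C W φ))
    (hP : ∀ o, ∀ y ∈ W, HolAt C (P o) y ∧ C.π (P o y) = φ y) (hsp : ∀ o, ∀ y ∈ W, Sp C (P o y))
    (hi : ∀ o o', ∀ y ∈ W, P o y = P o' y → o = o')
    (hs : ∀ i, ∀ y ∈ W, ∃ o, P o y = C.s i (φ y)) : (pbs C W φ P hne).IsStable := by
  have e : ∀ o, ∀ y ∈ W, (tPt hne y (P o y)).1.2 = P o y := fun o y hy =>
    congrArg Prod.snd (tPt_val hy (hP o y hy).2)
  refine isStable_toFam h.F (fun o y => tPt hne y (P o y)) (fun o => h.sec hne (hP o))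
    (fun o y hy => h.smooth ?_) (fun o o' y hy e1 => hi o o' y hy ?_) fun y hy D hD => ?_
  · rw [e o y hy]; exact hsp o y hy
  · rw [← e o y hy, ← e o' y hy]
    exact congrArg (fun x : Tot C W φ => x.1.2) e1
  · exact h.noField hne hy (fun o => (hP o y hy).2) (fun i => hs i y hy) D
      ((isField_toFam (F := h.F)).2 hD)

include h in
theorem ne (hW : W.Nonempty) : Nonempty (Tot C W φ) := by
  obtain ⟨y, hy⟩ := hW
  obtain ⟨p, hp⟩ := (h.st.2.2.2.2.2 _ (h.mem y hy)).1.nonempty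
  exact ⟨⟨(y, p), hy, hp⟩⟩

include h in
/-- **The pull back of a stable family is stable.** -/
theorem pb_stable (hne : Nonempty (Tot C W φ)) : (pb C W φ hne).IsStable :=
  h.stable hne (fun i y hy => ⟨(holAt_s h.st (h.mem y hy) i).comp (h.an y hy),
    π_s h.st (h.mem y hy) i⟩) (fun i y hy => sp_s h.st (h.mem y hy) i)
    (fun _ _ y hy e => s_inj h.st (h.mem y hy) e) fun i _ _ => ⟨i, rfl⟩

include h in
theorem pb_mor (hne : Nonempty (Tot C W φ)) (hy : y ∈ W) :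
    Mor (pb C W φ hne) C φ (fun x => x.1.2) y :=
  ⟨h.mem y hy, h.an y hy, (h.fb _ hne hy).iso fun i _ =>
    congrArg Prod.snd (tPt_val hy (π_s h.st (h.mem y hy) i)),
    fun x _ => ⟨cont_snd.continuousAt, fun _ hf => h.pull x hf⟩⟩

include h in
theorem fg_mor (P : L' → Cm k → C.X) (hne : Nonempty (Tot C W φ)) (hy : y ∈ W) :
    Mor (fg (pbs C W φ P hne)) (fg C) φ (fun x => x.1.2) y := by
  have h1 := h.fb P hne hy
  have h2 : FB (fg (pbs C W φ P hne)) y (fg C) (φ y) fun x => x.1.2 :=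
    ⟨h1.bij, h1.nf, h1.pull, h1.push⟩
  exact ⟨h.mem y hy, h.an y hy, h2.iso fun i => i.elim,
    fun x _ => ⟨cont_snd.continuousAt, fun _ hf => h.pull x hf⟩⟩

end PD

theorem pd_of (hC : C.IsStable) (hW : IsOpen W) (hσ : ∀ y ∈ W, HolAt C σ y) :
    PD C W fun y => C.π (σ y) := ⟨hC, hW, fun y hy => (hσ y hy).π hC, fun _ _ => hC.2.2.1 _⟩

/-- **T1: the pull back with the extra mark is stable over generic points.** -/
theorem add_stable (hC : C.IsStable) (hW : IsOpen W) (hne : W.Nonempty)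
    (hσ : ∀ y ∈ W, HolAt C σ y ∧ Gen C (σ y)) : (add C W σ hne).IsStable :=
  (pd_of hC hW fun y hy => (hσ y hy).1).stable _
    (fun o y hy => ⟨(hσ y hy).1.mk hC o, π_mk hC _ o⟩) (fun o y hy => (hσ y hy).2.sp_mk hC o)
    (fun _ _ y hy e => (hσ y hy).2.mk_inj hC e) fun i _ _ => ⟨some i, rfl⟩

theorem add_s (hC : C.IsStable) (hne : W.Nonempty) (hy : y ∈ W) (o : Option L) :
    ((add C W σ hne).s o y).1 = (y, mk C (σ y) o) := tPt_val hy (π_mk hC _ o)

theorem add_fb (hC : C.IsStable) (hW : IsOpen W) (hne : W.Nonempty)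
    (hσ : ∀ y ∈ W, HolAt C σ y) (hy : y ∈ W) :
    FB (add C W σ hne) y C (C.π (σ y)) fun x => x.1.2 := (pd_of hC hW hσ).fb _ _ hy

theorem FB.pt {C' : Fam L' k} {b : Cm m} {R : C'.X → C.X} (h : FB C' y C b R) (p : C.X) :
    FB C' y (pt C p) b R := ⟨h.bij, h.nf, h.pull, h.push⟩

/-- The fibres of `add` are the fibres of `C` with the extra mark. -/
theorem add_is (hC : C.IsStable) (hW : IsOpen W) (hne : W.Nonempty)
    (hσ : ∀ y ∈ W, HolAt C σ y) (hy : y ∈ W) :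
    Is (add C W σ hne) y (pt C (σ y)) (C.π (σ y)) fun x => x.1.2 :=
  ((add_fb hC hW hne hσ hy).pt (σ y)).iso fun o _ => congrArg Prod.snd (add_s hC hne hy o)

theorem add_mor_fg (hC : C.IsStable) (hW : IsOpen W) (hne : W.Nonempty)
    (hσ : ∀ y ∈ W, HolAt C σ y) (hy : y ∈ W) :
    Mor (fg (add C W σ hne)) (fg C) (fun y => C.π (σ y)) (fun x => x.1.2) y :=
  (pd_of hC hW hσ).fg_mor _ _ hy

/-- With the extra mark forgotten `add` is the pull back. -/
theorem sub_add (hne : W.Nonempty) :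
    sub some (add C W σ hne) = pb C W (fun y => C.π (σ y)) (tot_ne C σ hne) := rfl

end Vale.Agent.P269CT
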