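import Vale.Agent.P269CT.Sec
import Vale.Agent.P269CD.Defs
import Vale.Agent.P269CV.K2

/-!
P269, block C, row T3: charts of the total space of a Kuranishi family.
-/

set_option autoImplicit false
set_option linter.all false

noncomputable section

namespace Vale.Agent.P269CT

open Set Filter Topology Vale.Agent.P273.H183 Vale.Agent.P272.K Vale.Agent.P269C
open Vale.Agent.P273.H948 Vale.Agent.P269CD

variable {L : Type} {m k D : ℕ} {C : Fam L m}

theorem exists_ph {X Y : Type} [TopologicalSpace X] [TopologicalSpace Y] {F : X → Y} {G : Y → X}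
    {p : X} {P : X → Prop} {Q : Y → Prop}
    (h1 : ∀ᶠ q in 𝓝 p, G (F q) = q ∧ ContinuousAt F q ∧ P q)
    (h2 : ∀ᶠ y in 𝓝 (F p), F (G y) = y ∧ ContinuousAt G y ∧ Q y) :
    ∃ e : OpenPartialHomeomorph X Y, p ∈ e.source ∧ (∀ q, e q = F q) ∧ (∀ y, e.symm y = G y) ∧
      (∀ q ∈ e.source, P q) ∧ ∀ y ∈ e.target, Q y := by
  obtain ⟨U, hU, oU, pU⟩ := eventually_nhds_iff.1 h1
  obtain ⟨V, hV, oV, pV⟩ := eventually_nhds_iff.1 h2
  have cF : ContinuousOn F U := fun q hq => (hU q hq).2.1.continuousWithinAt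
  have cG : ContinuousOn G V := fun q hq => (hV q hq).2.1.continuousWithinAt
  let e : OpenPartialHomeomorph X Y :=
    { toFun := F
      invFun := G
      source := U ∩ F ⁻¹' V
      target := V ∩ G ⁻¹' U
      map_source' := fun q hq => ⟨hq.2, by rw [mem_preimage, (hU q hq.1).1]; exact hq.1⟩
      map_target' := fun y hy => ⟨hy.2, by rw [mem_preimage, (hV y hy.1).1]; exact hy.1⟩
      left_inv' := fun q hq => (hU q hq.1).1
      right_inv' := fun y hy => (hV y hy.1).1
      open_source := cF.isOpen_inter_preimage oU oV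
      open_target := cG.isOpen_inter_preimage oV oU
      continuousOn_toFun := cF.mono inter_subset_left
      continuousOn_invFun := cG.mono inter_subset_left }
  exact ⟨e, ⟨pU, pV⟩, fun _ => rfl, fun _ => rfl, fun q hq => (hU q hq.1).2.2,
    fun y hy => (hV y hy.1).2.2⟩

/-- Analytic functions of finitely many holomorphic functions. -/
theorem hol_pi (hC : C.IsStable) {F : C.X → Cm k} {p : C.X} (hF : ∀ i, C.hol (fun q => F q i) p)
    {g : Cm k → ℂ} (hg : AnalyticAt ℂ g (F p)) : C.hol (fun q => g (F q)) p := by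
  obtain ⟨U, u, v, t, hp, hm⟩ := ex_mo hC p
  choose K hK eK using fun i => (hm.hol p hp _).1 (hF i)
  have e : ∀ᶠ q in 𝓝 p, F q = fun i => K i (Emap C.π u v q) := by
    filter_upwards [eventually_all.2 eK] with q hq
    exact funext hq
  refine (hm.hol p hp _).2 ⟨fun w => g fun i => K i w, ?_, ?_⟩
  · rw [e.self_of_nhds] at hg
    exact AnalyticAt.comp (g := g) (f := fun w i => K i w) hg (analyticAt_pi_iff.2 hK)
  · filter_upwards [e] with q hq
    rw [hq]; rfl

theorem chart_of {C : Fam L D} (hC : C.IsStable) {F : C.X → Cm (D + 1)} {G : Cm (D + 1) → C.X}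
    {p : C.X} (hF : ∀ i, C.hol (fun q => F q i) p) (hG : HolAt C G (F p))
    (h1 : ∀ᶠ q in 𝓝 p, G (F q) = q) (h2 : ∀ᶠ y in 𝓝 (F p), F (G y) = y) :
    ∃ e : OpenPartialHomeomorph C.X (Cm (D + 1)), p ∈ e.source ∧ IsCh C e ∧ ∀ q, e q = F q := by
  have h3 : ∀ᶠ q in 𝓝 p, ∀ i, C.hol (fun q => F q i) q :=
    eventually_all.2 fun i => P269CV.hol_ev hC (hF i)
  obtain ⟨e, a1, a2, a3, a4, a5⟩ := exists_ph (F := F) (G := G) (p := p)
    (P := fun q => ∀ i, C.hol (fun q => F q i) q) (Q := HolAt C G)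
    (by
      filter_upwards [h1, h3] with q b1 b2
      exact ⟨b1, continuousAt_pi.2 fun i => P269CV.hol_cont hC (b2 i), b2⟩)
    (by
      filter_upwards [h2, hG.ev hC] with y b1 b2
      exact ⟨b1, b2.1, b2⟩)
  have e1 : (e.symm : Cm (D + 1) → C.X) = G := funext a3
  refine ⟨e, a1, fun q hq f => ⟨fun hf => ?_, fun hf => ?_⟩, a2⟩
  · have b1 := (a5 _ (e.map_source hq)).2 f (by rw [← e1, e.left_inv hq]; exact hf)
    rw [e1]; exact b1
  · rw [a2] at hf
    refine P269CV.hol_congr hC (hol_pi hC (a4 q hq) hf) ?_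
    filter_upwards [e.open_source.mem_nhds hq] with w hw
    rw [← a2, e.left_inv hw]

theorem an_pr (y : Cm (D + 1)) : AnalyticAt ℂ (pr : Cm (D + 1) → Cm D) y :=
  analyticAt_pi_iff.2 fun i =>
    (ContinuousLinearMap.proj (R := ℂ) (φ := fun _ : Fin (D + 1) => ℂ) i.castSucc).analyticAt y

theorem an_co (i : Fin k) (y : Cm k) : AnalyticAt ℂ (fun x : Cm k => x i) y :=
  (ContinuousLinearMap.proj (R := ℂ) (φ := fun _ : Fin k => ℂ) i).analyticAt y

theorem hol_πi (hC : C.IsStable) (p : C.X) (i : Fin m) : C.hol (fun q => C.π q i) p := by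
  obtain ⟨U, u, v, t, hp, hm⟩ := ex_mo hC p
  exact hm.hol_π hp i

theorem pr_snoc (b : Cm D) (z : ℂ) : pr (Fin.snoc (α := fun _ => ℂ) b z) = b := Fin.init_snoc _ _

theorem snoc_pr (y : Cm (D + 1)) : Fin.snoc (α := fun _ => ℂ) (pr y) (y (Fin.last D)) = y :=
  Fin.snoc_init_self _

theorem t3_co {C : Fam L D} (hC : C.IsStable) (z : C.X → ℂ) (p : C.X) (hh : C.hol z p)
    (hz : Co C z p) : ∃ e : OpenPartialHomeomorph C.X (Cm (D + 1)), p ∈ e.source ∧ IsCh C e ∧
      ∀ q ∈ e.source, e q = Fin.snoc (α := fun _ => ℂ) (C.π q) (z q) := by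
  obtain ⟨σ, hσ⟩ := P269CV.co_par2 hC hh hz
  have ha : ∀ y : Cm (D + 1), AnalyticAt ℂ (fun y : Cm (D + 1) => (pr y, y (Fin.last D))) y :=
    fun y => (an_pr y).prod (an_co _ y)
  have e0 : ∀ q, (pr (Fin.snoc (α := fun _ => ℂ) (C.π q) (z q)),
      Fin.snoc (α := fun _ => ℂ) (C.π q) (z q) (Fin.last D)) = (C.π q, z q) := by
    intro q
    rw [pr_snoc, Fin.snoc_last]
  have ht : Tendsto (fun y : Cm (D + 1) => (pr y, y (Fin.last D)))
      (𝓝 (Fin.snoc (α := fun _ => ℂ) (C.π p) (z p))) (𝓝 (C.π p, z p)) := by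
    rw [← e0]; exact (ha _).continuousAt
  refine (chart_of hC (F := fun q => Fin.snoc (α := fun _ => ℂ) (C.π q) (z q))
    (G := fun y => σ (pr y, y (Fin.last D))) (p := p) (fun i => ?_) ⟨?_, fun f hf => ?_⟩ ?_ ?_).imp
    fun e he => ⟨he.1, he.2.1, fun q _ => he.2.2 q⟩
  · refine Fin.lastCases ?_ (fun j => ?_) i
    · simp only [Fin.snoc_last]; exact hh
    · simp only [Fin.snoc_castSucc]; exact hol_πi hC p j
  · have h1 := hσ.tend.comp ht
    rw [ContinuousAt, e0, hσ.base]; exact h1
  · simp only [e0, hσ.base] at hf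
    exact AnalyticAt.comp_of_eq (g := fun s => f (σ s)) (hσ.an f hf) (ha _) (e0 p)
  · filter_upwards [hσ.left] with q hq
    rw [e0, hq]
  · filter_upwards [ht.eventually hσ.right] with y hy
    rw [hy.1, hy.2]; exact snoc_pr y

/-- Replacing one coordinate by a function with nonzero partial derivative. -/
theorem upd_inv {t : Cm D → ℂ} {b : Cm D} (ht : AnalyticAt ℂ t b) {l : Fin D}
    (hl : fderiv ℂ t b (Pi.single l 1) ≠ 0) : ∃ S : Cm D → Cm D,
    AnalyticAt ℂ S (Function.update b l (t b)) ∧ (∀ᶠ x in 𝓝 b, S (Function.update x l (t x)) = x) ∧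
    ∀ᶠ w in 𝓝 (Function.update b l (t b)), Function.update (S w) l (t (S w)) = w := by
  have hT : AnalyticAt ℂ (fun x : Cm D => Function.update x l (t x)) b := by
    refine analyticAt_pi_iff.2 fun j => ?_
    by_cases hj : j = l
    · subst hj; simp only [Function.update_self]; exact ht
    · simp only [Function.update_of_ne hj]; exact an_co j b
  set A := fderiv ℂ (fun x : Cm D => Function.update x l (t x)) b with hA
  have hd := hasFDerivAt_pi'.1 hT.differentiableAt.hasFDerivAt
  have hinj : Function.Injective (A : Cm D →ₗ[ℂ] Cm D) := by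
    refine (injective_iff_map_eq_zero _).2 fun x hx => ?_
    have hx' : A x = 0 := hx
    have h1 : ∀ j, j ≠ l → x j = 0 := by
      intro j hj
      have h2 := hd j
      simp only [Function.update_of_ne hj] at h2
      have h3 := h2.unique
        (ContinuousLinearMap.proj (R := ℂ) (φ := fun _ : Fin D => ℂ) j).hasFDerivAt
      have h4 := congrArg (fun f : Cm D →L[ℂ] ℂ => f x) h3
      simp only [ContinuousLinearMap.comp_apply, ← hA, hx', map_zero] at h4
      exact h4.symm
    have h2 := hd l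
    simp only [Function.update_self] at h2
    have h4 := congrArg (fun f : Cm D →L[ℂ] ℂ => f x) (h2.unique ht.differentiableAt.hasFDerivAt)
    simp only [ContinuousLinearMap.comp_apply, ← hA, hx', map_zero] at h4
    have h5 : x = x l • (Pi.single l 1 : Cm D) := by
      funext j
      by_cases hj : j = l
      · subst hj; simp
      · simp [h1 j hj, hj]
    rw [h5, map_smul, smul_eq_mul] at h4
    rw [h5, (mul_eq_zero.1 h4.symm).resolve_right hl, zero_smul]
  let E : Cm D ≃L[ℂ] Cm D := (LinearEquiv.ofInjectiveEndo _ hinj).toContinuousLinearEquiv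
  have hs : HasStrictFDerivAt (fun x : Cm D => Function.update x l (t x))
      (E : Cm D →L[ℂ] Cm D) b := hT.hasStrictFDerivAt
  exact ⟨hs.localInverse _ E _, ContDiffAt.analyticAt
    (hT.contDiffAt.to_localInverse hs.hasFDerivAt (by simp)), hs.eventually_left_inverse,
    hs.eventually_right_inverse⟩

theorem t3_node {C : Fam L D} (hC : C.IsStable) {U : Set C.X} {u v : C.X → ℂ} {t : Cm D → ℂ}
    (hm : Mo C U u v t) {p : C.X} (hp : p ∈ U) {l : Fin D}
    (hl : fderiv ℂ t (C.π p) (Pi.single l 1) ≠ 0) :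
    ∃ e : OpenPartialHomeomorph C.X (Cm (D + 1)), p ∈ e.source ∧ IsCh C e ∧
      ∀ q, e q = Fin.snoc (α := fun _ => ℂ) (Function.update (C.π q) l (u q)) (v q) := by
  have : Nonempty C.X := ⟨p⟩
  obtain ⟨S, s1, s2, s3⟩ := upd_inv (hm.an p hp) hl
  set F : C.X → Cm (D + 1) :=
    fun q => Fin.snoc (α := fun _ => ℂ) (Function.update (C.π q) l (u q)) (v q) with hF
  set N : Cm (D + 1) → Cm D :=
    fun w => Function.update (pr w) l (w l.castSucc * w (Fin.last D)) with hN
  have f1 : ∀ q, F q l.castSucc = u q := fun q => by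
    simp only [hF, Fin.snoc_castSucc, Function.update_self]
  have f2 : ∀ q, F q (Fin.last D) = v q := fun q => by simp only [hF, Fin.snoc_last]
  have f3 : ∀ q ∈ U, N (F q) = Function.update (C.π q) l (t (C.π q)) := fun q hq => by
    simp only [hN, f1, f2, hm.eqn q hq]
    simp only [hF, pr_snoc, Function.update_idem]
  have aN : AnalyticAt ℂ N (F p) := by
    refine analyticAt_pi_iff.2 fun j => ?_
    by_cases hj : j = l
    · subst hj; simp only [hN, Function.update_self]; exact (an_co _ _).mul (an_co _ _)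
    · simp only [hN, Function.update_of_ne hj]; exact an_co j.castSucc _
  set γ : Cm (D + 1) → Amb D := fun w => (S (N w), w l.castSucc, w (Fin.last D)) with hγ
  have aγ : AnalyticAt ℂ γ (F p) := (AnalyticAt.comp_of_eq s1 aN (f3 p hp)).prod
    ((an_co _ _).prod (an_co _ _))
  have g1 : ∀ᶠ q in 𝓝 p, γ (F q) = Emap C.π u v q := by
    filter_upwards [hm.isOpen.mem_nhds hp, (hm.cont_π hp).eventually s2] with q h1 h2
    simp only [hγ, f1, f2, f3 q h1, h2, Emap]
  have g2 : ∀ᶠ w in 𝓝 (F p), Function.update (S (N w)) l (t (S (N w))) = N w := by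
    rw [← f3 p hp] at s3
    exact aN.continuousAt.eventually s3
  have g3 : Tendsto γ (𝓝 (F p)) (𝓝[Mset t] (Emap C.π u v p)) := by
    refine tendsto_nhdsWithin_iff.2 ⟨g1.self_of_nhds ▸ aγ.continuousAt, ?_⟩
    filter_upwards [g2] with w hw
    have h1 := congrFun hw l
    simp only [hN, Function.update_self] at h1
    exact h1.symm
  have g4 := g3.eventually (P273SD.ev_Qc hm hp)
  refine chart_of hC (F := F) (G := fun w => P273SD.Qc C U u v (γ w)) (fun i => ?_)
    (holAt_of hm (g4.mono fun _ h => h.1) (aγ.congr (g4.mono fun _ h => h.2.symm))) ?_ ?_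
  · refine Fin.lastCases ?_ (fun j => ?_) i
    · simp only [f2]; exact hm.hol_v hp
    · by_cases hj : j = l
      · subst hj; simp only [f1]; exact hm.hol_u hp
      · simp only [hF, Fin.snoc_castSucc, Function.update_of_ne hj]; exact hm.hol_π hp j
  · filter_upwards [hm.isOpen.mem_nhds hp, g1] with q h1 h2
    rw [h2, P273SD.Qc_E hm h1]
  · filter_upwards [g4, g2] with w h1 h2
    have h3 : C.π (P273SD.Qc C U u v (γ w)) = S (N w) := congrArg (fun a : Amb D => a.1) h1.2
    have h4 : u (P273SD.Qc C U u v (γ w)) = w l.castSucc := congrArg (fun a : Amb D => a.2.1) h1.2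
    have h5 : v (P273SD.Qc C U u v (γ w)) = w (Fin.last D) :=
      congrArg (fun a : Amb D => a.2.2) h1.2
    have h6 : Function.update (S (N w)) l (w l.castSucc) = pr w := by
      funext j
      by_cases hj : j = l
      · subst hj; rw [Function.update_self]; rfl
      · have h7 := congrFun h2 j
        simp only [hN, Function.update_of_ne hj] at h7 ⊢
        exact h7
    simp only [hF, h3, h4, h5, h6]
    exact snoc_pr w

theorem t3_ex {C : Fam L D} (hK : Kur C) (p : C.X) :
    ∃ e : OpenPartialHomeomorph C.X (Cm (D + 1)), p ∈ e.source ∧ IsCh C e := by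
  by_cases hp : Sp C p
  · obtain ⟨z, h1, h2⟩ := ex_co hK.1 hp
    obtain ⟨e, a1, a2, -⟩ := t3_co hK.1 z p h1 h2
    exact ⟨e, a1, a2⟩
  · simp only [Sp, not_forall, not_or, not_not] at hp
    obtain ⟨U, u, v, t, hU, hp, h1, h2⟩ := hp
    have h3 := hK.2.1 U u v t hU p hp h1 h2
    obtain ⟨l, hl⟩ : ∃ l, fderiv ℂ t (C.π p) (Pi.single l 1) ≠ 0 := by
      by_contra h4
      push Not at h4
      refine h3 (ContinuousLinearMap.ext fun x => ?_)
      rw [pi_eq_sum_univ' x, map_sum]
      simp only [map_smul, h4, smul_zero, Finset.sum_const_zero, ContinuousLinearMap.zero_apply]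
    obtain ⟨e, a1, a2, -⟩ := t3_node hK.1 (mo_of hU) hp hl
    exact ⟨e, a1, a2⟩

/-- **Row T3.** -/
theorem t3 : T3 := ⟨fun hK p => t3_ex hK p, fun hC z p h1 h2 => t3_co hC z p h1 h2⟩

end Vale.Agent.P269CT
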