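import Vale.Agent.P269CT.FB
import Vale.Agent.P273.H949.Stable

/-!
P269, block C: the pull back of a family of stable curves.
-/

set_option autoImplicit false
set_option linter.all false

noncomputable section

namespace Vale.Agent.P269CT

open Set Filter Topology Vale.Agent.P273.H183 Vale.Agent.P272.K Vale.Agent.P269C
open Vale.Agent.P273.H948 Vale.Agent.P273.H949

variable {L L' : Type} {m k : ℕ} {C : Fam L m} {W : Set (Cm k)} {φ : Cm k → Cm m}

/-- Models of a family. -/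
abbrev Mo (C : Fam L m) (U : Set C.X) (u v : C.X → ℂ) (t : Cm m → ℂ) : Prop :=
  IsModel C.π (fun p f => C.hol f p) U u v t

theorem mo_of {U : Set C.X} {u v : C.X → ℂ} {t : Cm m → ℂ} (h : IsChart C.π C.hol U u v t) :
    Mo C U u v t := IsChart.isModel (hol := fun p f => C.hol f p) h

theorem Mo.chart {U : Set C.X} {u v : C.X → ℂ} {t : Cm m → ℂ} (h : Mo C U u v t) :
    IsChart C.π C.hol U u v t := IsModel.isChart h

/-- The surface of a stable family. -/
def sf (C : Fam L m) (hC : C.IsStable) : Surf m where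
  X := C.X
  top := C.top
  t2 := hC.2.1
  π := C.π
  hol p f := C.hol f p
  model p := by
    obtain ⟨U, u, v, t, hp, h⟩ := hC.2.2.2.2.1 p
    exact ⟨U, u, v, t, hp, mo_of h⟩

theorem cont_π (hC : C.IsStable) : Continuous C.π := (sf C hC).cont_π

theorem cont_fst : Continuous fun x : Tot C W φ => x.1.1 :=
  continuous_fst.comp continuous_subtype_val

theorem cont_snd : Continuous fun x : Tot C W φ => x.1.2 :=
  continuous_snd.comp continuous_subtype_val

/-- The pull back of a model. -/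
theorem tot_model (hW : IsOpen W) (hφ : ∀ y ∈ W, AnalyticAt ℂ φ y) {U : Set C.X} {u v : C.X → ℂ}
    {t : Cm m → ℂ} (h : Mo C U u v t) :
    IsModel (fun x : Tot C W φ => x.1.1) (fun x f => tHol C W φ f x) {x | x.1.2 ∈ U}
      (fun x => u x.1.2) (fun x => v x.1.2) fun y => t (φ y) := by
  let κ : Amb k → Amb m := fun w => (φ w.1, w.2)
  have hκ : ∀ x : Tot C W φ, κ (Emap (fun x : Tot C W φ => x.1.1) (fun x => u x.1.2)
      (fun x => v x.1.2) x) = Emap C.π u v x.1.2 := by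
    intro x
    simp only [κ, Emap, x.2.2]
  have aκ : ∀ w : Amb k, w.1 ∈ W → AnalyticAt ℂ κ w := fun w hw =>
    (AnalyticAt.comp (g := φ) (hφ _ hw) (an_b w)).prod analyticAt_snd
  refine ⟨h.isOpen.preimage cont_snd, ?_, ?_, ?_, ?_, ?_⟩
  · intro x hx x' hx' e
    have e1 : x.1.1 = x'.1.1 := congrArg (fun w : Amb k => w.1) e
    have e2 := congrArg κ e
    rw [hκ, hκ] at e2
    exact Subtype.ext (Prod.ext e1 (h.inj hx hx' e2))
  · intro x hx
    rw [← x.2.2]; exact h.eqn _ hx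
  · intro x hx
    refine AnalyticAt.comp (g := t) ?_ (hφ _ x.2.1)
    rw [← x.2.2]; exact h.an _ hx
  · intro x hx
    refine le_antisymm (tendsto_nhdsWithin_iff.2 ⟨?_, ?_⟩) ?_
    · exact cont_fst.continuousAt.prodMk
        ((ContinuousAt.comp (f := fun x : Tot C W φ => x.1.2) (h.cont_u hx)
          cont_snd.continuousAt).prodMk
        (ContinuousAt.comp (f := fun x : Tot C W φ => x.1.2) (h.cont_v hx) cont_snd.continuousAt))
    · filter_upwards [(h.isOpen.preimage cont_snd).mem_nhds hx] with q hq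
      change u q.1.2 * v q.1.2 = t (φ q.1.1)
      rw [← q.2.2]; exact h.eqn _ hq
    · intro s hs
      obtain ⟨N, hN, hNs⟩ := (mem_nhds_subtype _ x _).1 (Filter.mem_map.1 hs)
      rw [show x.1 = (x.1.1, x.1.2) from rfl, mem_nhds_prod_iff] at hN
      obtain ⟨A, hA, B, hB, hAB⟩ := hN
      have h1 : Emap C.π u v '' B ∈ 𝓝[Mset t] (Emap C.π u v x.1.2) := by
        rw [← h.nhds _ hx]; exact image_mem_map hB
      obtain ⟨O, hO, hOs⟩ := mem_nhdsWithin_iff_exists_mem_nhds_inter.1 h1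
      rw [← hκ] at hO
      have h2 := (aκ _ x.2.1).continuousAt hO
      have h3 : (fun w : Amb k => w.1) ⁻¹' (A ∩ W) ∈ 𝓝 (Emap (fun x : Tot C W φ => x.1.1)
          (fun x => u x.1.2) (fun x => v x.1.2) x) :=
        continuousAt_fst (inter_mem hA (hW.mem_nhds x.2.1))
      refine mem_nhdsWithin_iff_exists_mem_nhds_inter.2 ⟨_, inter_mem h2 h3, ?_⟩
      rintro w ⟨⟨hw1, hw2, hw3⟩, hw4⟩
      obtain ⟨p, hp, e⟩ := hOs ⟨hw1, hw4⟩
      have e1 : C.π p = φ w.1 := congrArg Prod.fst e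
      have e2 : (u p, v p) = w.2 := congrArg Prod.snd e
      have h5 := hNs (a := ⟨(w.1, p), hw3, e1⟩) (hAB ⟨hw2, hp⟩)
      have e3 : Emap (fun x : Tot C W φ => x.1.1) (fun x => u x.1.2) (fun x => v x.1.2)
          ⟨(w.1, p), hw3, e1⟩ = w := Prod.ext rfl e2
      rw [← e3]; exact h5
  · intro x hx f
    constructor
    · rintro ⟨U', u', v', t', h', hx', g, hg, e⟩
      obtain ⟨k₁, a₁, e₁⟩ := (h.hol _ hx u').1 ((mo_of h').hol_u hx')
      obtain ⟨k₂, a₂, e₂⟩ := (h.hol _ hx v').1 ((mo_of h').hol_v hx')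
      have f₁ : u' x.1.2 = k₁ (Emap C.π u v x.1.2) := e₁.self_of_nhds
      have f₂ : v' x.1.2 = k₂ (Emap C.π u v x.1.2) := e₂.self_of_nhds
      rw [← hκ] at a₁ a₂ f₁ f₂
      refine ⟨fun w => g (w.1, k₁ (κ w), k₂ (κ w)), ?_, ?_⟩
      · refine AnalyticAt.comp (g := g) ?_ ((an_b _).prod
          ((AnalyticAt.comp (g := k₁) a₁ (aκ _ x.2.1)).prod
            (AnalyticAt.comp (g := k₂) a₂ (aκ _ x.2.1))))
        rw [← f₁, ← f₂]; exact hg
      · filter_upwards [e, cont_snd.continuousAt.eventually e₁,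
          cont_snd.continuousAt.eventually e₂] with q h1 h2 h3
        simp only [Function.comp_apply] at h2 h3 ⊢
        rw [h1, hκ, ← h2, ← h3]; rfl
    · rintro ⟨g, hg, e⟩
      exact ⟨U, u, v, t, h.chart, hx, g, hg, e⟩

/-- The data of a pull back. -/
structure PD (C : Fam L m) (W : Set (Cm k)) (φ : Cm k → Cm m) : Prop where
  st : C.IsStable
  op : IsOpen W
  an : ∀ y ∈ W, AnalyticAt ℂ φ y
  mem : ∀ y ∈ W, φ y ∈ C.B

namespace PD

variable (h : PD C W φ)

/-- The pull back as a surface. -/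
def S : Surf k where
  X := Tot C W φ
  top := inferInstance
  t2 := by
    have := h.st.2.1
    infer_instance
  π x := x.1.1
  hol x f := tHol C W φ f x
  model x := by
    obtain ⟨U, u, v, t, hp, h1⟩ := h.st.2.2.2.2.1 x.1.2
    exact ⟨_, _, _, _, hp, tot_model h.op h.an (mo_of h1)⟩

/-- The pull back as a proper family. -/
def F : PFam k where
  S := h.S
  B := W
  openB := h.op
  mem x := x.2.1
  proper K hK hK' := by
    have := h.st.2.1
    have hc : ContinuousOn φ K := fun y hy => (h.an y (hK hy)).continuousAt.continuousWithinAt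
    have h1 : IsCompact (K ×ˢ (C.π ⁻¹' (φ '' K))) := hK'.prod (h.st.2.2.2.1 _
      (by rintro _ ⟨y, hy, rfl⟩; exact h.mem y (hK hy)) (hK'.image_of_continuousOn hc))
    have h2 : IsClosed {x ∈ K ×ˢ (C.π ⁻¹' (φ '' K)) | C.π x.2 = φ x.1} :=
      h1.isClosed.isClosed_eq ((cont_π h.st).comp continuous_snd).continuousOn
        (hc.comp continuousOn_fst fun x hx => hx.1)
    have h3 := h1.of_isClosed_subset h2 fun x hx => hx.1
    change IsCompact ((fun x : Tot C W φ => x.1.1) ⁻¹' K)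
    rw [Subtype.isCompact_iff]
    refine (congrArg IsCompact ?_).mp h3
    ext x
    constructor
    · rintro ⟨⟨h4, -⟩, h5⟩
      exact ⟨⟨x, hK h4, h5⟩, h4, rfl⟩
    · rintro ⟨x, h4, rfl⟩
      exact ⟨⟨h4, x.1.1, h4, x.2.2.symm⟩, x.2.2⟩
  conn y hy := by
    have h1 : IsConnected (C.fib (φ y)) := (h.st.2.2.2.2.2 _ (h.mem y hy)).1
    have h2 : (Subtype.val : Tot C W φ → Cm k × C.X) '' ((fun x : Tot C W φ => x.1.1) ⁻¹' {y}) =
        (fun p => (y, p)) '' C.fib (φ y) := by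
      ext x
      constructor
      · rintro ⟨x, h4, rfl⟩
        have h5 : x.1.1 = y := h4
        exact ⟨x.1.2, by rw [← h5]; exact x.2.2, by rw [← h5]⟩
      · rintro ⟨p, hp, rfl⟩
        exact ⟨⟨(y, p), hy, hp⟩, rfl, rfl⟩
    have h3 := h1.image (fun p => (y, p)) (by fun_prop)
    rw [← h2] at h3
    change IsConnected ((fun x : Tot C W φ => x.1.1) ⁻¹' {y})
    exact ⟨h3.nonempty.of_image, IsInducing.subtypeVal.isPreconnected_image.1 h3.isPreconnected⟩

include h in
/-- Pull back of holomorphic functions. -/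
theorem pull (x : Tot C W φ) {f : C.X → ℂ} (hf : C.hol f x.1.2) :
    tHol C W φ (fun q => f q.1.2) x := by
  obtain ⟨U, u, v, t, hp, h1⟩ := h.st.2.2.2.2.1 x.1.2
  obtain ⟨g, hg, e⟩ := ((mo_of h1).hol _ hp f).1 hf
  refine ⟨U, u, v, t, h1, hp, fun w => g (φ w.1, w.2), ?_, ?_⟩
  · have h2 : AnalyticAt ℂ (fun w : Amb k => φ w.1) (x.1.1, u x.1.2, v x.1.2) :=
      AnalyticAt.comp (g := φ) (h.an _ x.2.1) (an_b (x.1.1, u x.1.2, v x.1.2))
    refine AnalyticAt.comp (g := g) ?_ (h2.prod analyticAt_snd)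
    rw [← x.2.2]; exact hg
  · filter_upwards [cont_snd.continuousAt.eventually e] with q hq
    rw [hq, ← q.2.2]; rfl

include h in
/-- Functions of the base are holomorphic. -/
theorem base (x : Tot C W φ) {f : Cm k → ℂ} (hf : AnalyticAt ℂ f x.1.1) :
    tHol C W φ (fun q => f q.1.1) x := by
  obtain ⟨U, u, v, t, hp, h1⟩ := h.st.2.2.2.2.1 x.1.2
  exact ⟨U, u, v, t, h1, hp, fun w => f w.1, AnalyticAt.comp (g := f) hf (an_b _),
    Eventually.of_forall fun _ => rfl⟩

include h in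
/-- The projection induces isomorphisms of the fibres. -/
theorem fb (P : L' → Cm k → C.X) (hne : Nonempty (Tot C W φ)) {y : Cm k} (hy : y ∈ W) :
    FB (pbs C W φ P hne) y C (φ y) fun x => x.1.2 := by
  have hb : BijOn (fun x : Tot C W φ => x.1.2) ((pbs C W φ P hne).fib y) (C.fib (φ y)) := by
    refine ⟨fun x hx => ?_, fun x hx x' hx' e => ?_, fun p hp => ⟨⟨(y, p), hy, hp⟩, rfl, rfl⟩⟩
    · have h1 : x.1.1 = y := hx
      rw [← h1]; exact x.2.2
    · have h1 : x.1.1 = y := hx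
      have h2 : x'.1.1 = y := hx'
      exact Subtype.ext (Prod.ext (h1.trans h2.symm) e)
  refine ⟨hb, fun x hx => ?_, fun x _ f hf => h.pull x hf, fun x hx f hf => ?_⟩
  · rw [nf_eq hx, nf_eq (hb.mapsTo hx)]
    refine le_antisymm (cont_snd.continuousAt.continuousWithinAt.tendsto_nhdsWithin hb.mapsTo) ?_
    intro s hs
    have h1 : x.1.1 = y := hx
    obtain ⟨O, hO, hOs⟩ := mem_nhdsWithin_iff_exists_mem_nhds_inter.1 (Filter.mem_map.1 hs)
    obtain ⟨N, hN, hNs⟩ := (mem_nhds_subtype _ x _).1 hO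
    have h2 : ContinuousAt (fun p : C.X => (y, p)) x.1.2 := by fun_prop
    have h3 : N ∈ 𝓝 (y, x.1.2) := by rw [← h1]; exact hN
    filter_upwards [nhdsWithin_le_nhds (h2 h3), self_mem_nhdsWithin] with p h4 h5
    exact hOs (a := ⟨(y, p), hy, h5⟩) ⟨hNs h4, rfl⟩
  · obtain ⟨U, u, v, t, h1, hp, g, hg, e⟩ := hf
    have h2 : x.1.1 = y := hx
    refine ⟨fun p => g (y, u p, v p), ((mo_of h1).hol _ hp _).2 ⟨fun w => g (y, w.2), ?_,
      EventuallyEq.rfl⟩, ?_⟩
    · refine AnalyticAt.comp (g := g) ?_ (analyticAt_const.prod analyticAt_snd)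
      rw [← h2]; exact hg
    · rw [nf_eq hx]
      filter_upwards [nhdsWithin_le_nhds e, self_mem_nhdsWithin] with q h3 h4
      have h5 : q.1.1 = y := h4
      rw [h3, h5]

end PD

theorem tPt_val {hne : Nonempty (Tot C W φ)} {y : Cm k} {p : C.X} (hy : y ∈ W)
    (hp : C.π p = φ y) : (tPt hne y p).1 = (y, p) := by
  have : tPt hne y p = ⟨(y, p), hy, hp⟩ := dif_pos ⟨hy, hp⟩
  rw [this]

end Vale.Agent.P269CT
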