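import Vale.Agent.P269CT.Defs

/-!
P269, block C: maps of total spaces that induce isomorphisms of fibres.
-/

set_option autoImplicit false
set_option linter.all false

noncomputable section

namespace Vale.Agent.P269CT

open Set Filter Topology Vale.Agent.P273.H183 Vale.Agent.P272.K Vale.Agent.P269C

variable {L L' L'' : Type} {m k n : ℕ}

/-- `R` induces an isomorphism of the fibre of `C'` over `y` with the fibre of `C` over `b`. -/
structure FB (C' : Fam L' k) (y : Cm k) (C : Fam L m) (b : Cm m) (R : C'.X → C.X) : Prop where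
  bij : BijOn R (C'.fib y) (C.fib b)
  nf : ∀ p ∈ C'.fib y, map R (nf C' p) = nf C (R p)
  pull : ∀ p ∈ C'.fib y, ∀ f, C.hol f (R p) → C'.hol (fun q => f (R q)) p
  push : ∀ p ∈ C'.fib y, ∀ f, C'.hol f p →
    ∃ g, C.hol g (R p) ∧ f =ᶠ[P269C.nf C' p] fun q => g (R q)

theorem nf_eq {C : Fam L m} {b : Cm m} {p : C.X} (hp : p ∈ C.fib b) : nf C p = 𝓝[C.fib b] p := by
  have h : C.π p = b := hp
  rw [nf, h]

theorem nf_fib (C : Fam L m) (p : C.X) : ∀ᶠ q in nf C p, C.π q = C.π p := self_mem_nhdsWithin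

theorem nf_le (C : Fam L m) (p : C.X) : nf C p ≤ 𝓝 p := nhdsWithin_le_nhds

theorem nf_self {C : Fam L m} {p : C.X} {P : C.X → Prop} (h : ∀ᶠ q in nf C p, P q) : P p :=
  h.self_of_nhdsWithin (show p ∈ C.fib (C.π p) from rfl)

namespace FB

variable {C'' : Fam L'' n} {C' : Fam L' k} {C : Fam L m} {x : Cm n} {y : Cm k} {b : Cm m}
  {R : C'.X → C.X} {R' : C''.X → C'.X}

theorem tendsto (h : FB C' y C b R) {p : C'.X} (hp : p ∈ C'.fib y) :
    Tendsto R (P269C.nf C' p) (P269C.nf C (R p)) := (h.nf p hp).le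

theorem comp (h : FB C' y C b R) (h' : FB C'' x C' y R') : FB C'' x C b fun p => R (R' p) where
  bij := h.bij.comp h'.bij
  nf p hp := by
    rw [← h.nf _ (h'.bij.mapsTo hp), ← h'.nf p hp, Filter.map_map]; rfl
  pull p hp f hf := h'.pull p hp _ (h.pull _ (h'.bij.mapsTo hp) f hf)
  push p hp f hf := by
    obtain ⟨g, hg, e⟩ := h'.push p hp f hf
    obtain ⟨g', hg', e'⟩ := h.push _ (h'.bij.mapsTo hp) g hg
    refine ⟨g', hg', ?_⟩
    filter_upwards [e, (h'.tendsto hp).eventually e'] with q h1 h2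
    rw [h1, h2]

theorem fh (h : FB C' y C b R) {p : C'.X} (hp : p ∈ C'.fib y) {f : C'.X → ℂ} {f' : C.X → ℂ}
    (e : f =ᶠ[P269C.nf C' p] fun q => f' (R q)) : FH C' f p ↔ FH C f' (R p) := by
  constructor
  · rintro ⟨g, hg, e1⟩
    obtain ⟨g', hg', e2⟩ := h.push p hp g hg
    refine ⟨g', hg', ?_⟩
    rw [← h.nf p hp]
    refine Filter.eventually_map.2 ?_
    filter_upwards [e, e1, e2] with q h1 h2 h3
    rw [← h1, h2, h3]
  · rintro ⟨g, hg, e1⟩
    refine ⟨_, h.pull p hp g hg, ?_⟩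
    filter_upwards [e, (h.tendsto hp).eventually e1] with q h1 h2
    rw [h1, h2]

theorem co (h : FB C' y C b R) {p : C'.X} (hp : p ∈ C'.fib y) {z : C.X → ℂ} :
    Co C' (fun q => z (R q)) p ↔ Co C z (R p) := by
  refine and_congr (h.fh hp EventuallyEq.rfl) ⟨?_, ?_⟩
  · rintro ⟨U, hU, hi⟩
    refine ⟨R '' U, by rw [← h.nf p hp]; exact image_mem_map hU, ?_⟩
    rintro _ ⟨q, hq, rfl⟩ _ ⟨q', hq', rfl⟩ e
    rw [hi hq hq' e]
  · rintro ⟨U, hU, hi⟩
    refine ⟨R ⁻¹' U ∩ C'.fib y, inter_mem (h.tendsto hp hU) ?_, ?_⟩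
    · rw [nf_eq hp]; exact self_mem_nhdsWithin
    · intro q hq q' hq' e
      exact h.bij.injOn hq.2 hq'.2 (hi hq.1 hq'.1 e)

theorem contOn (h : FB C' y C b R) : ContinuousOn R (C'.fib y) := by
  intro p hp
  have h1 := (h.tendsto hp).mono_right (nf_le C _)
  rw [nf_eq hp] at h1
  exact h1

/-- The restriction to the fibre is an isomorphism of marked curves. -/
theorem iso {C' : Fam L k} {R : C'.X → C.X} (h : FB C' y C b R)
    (hs : ∀ i, C'.s i y ∈ C'.fib y → R (C'.s i y) = C.s i b) :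
    (fun p : C'.fib y => R p) ∈ Iso C' y C b := by
  refine ⟨continuousOn_iff_continuous_restrict.1 h.contOn, ?_, ?_, ?_, ?_⟩
  · intro p q e
    exact Subtype.ext (h.bij.injOn p.2 q.2 e)
  · rw [← h.bij.image_eq]
    ext q
    constructor
    · rintro ⟨p, rfl⟩
      exact ⟨p, p.2, rfl⟩
    · rintro ⟨p, hp, rfl⟩
      exact ⟨⟨p, hp⟩, rfl⟩
  · intro i p e
    have h1 := hs i (e ▸ p.2)
    rw [← e] at h1
    exact h1
  · intro p f f' e
    refine h.fh p.2 ?_
    rw [nf_eq p.2]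
    filter_upwards [self_mem_nhdsWithin] with q hq
    exact e ⟨q, hq⟩

/-- The absence of vector fields passes through `R`. -/
theorem noField (h : FB C' y C b R) (hs : ∀ i, ∃ j, C'.s j y ∈ C'.fib y ∧ R (C'.s j y) = C.s i b)
    (hC : ∀ D, C.IsField b D → ∀ p ∈ C.fib b, ∀ f, C.hol f p → D f p = 0) :
    ∀ D, C'.IsField y D → ∀ p ∈ C'.fib y, ∀ f, C'.hol f p → D f p = 0 := by
  intro D hD p hp f hf
  have hne : Nonempty C'.X := ⟨p⟩
  set S : C.X → C'.X := Function.invFunOn R (C'.fib y) with hS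
  have hSR : ∀ q ∈ C'.fib y, S (R q) = q := fun q hq => h.bij.invOn_invFunOn.1 hq
  have key : C.IsField b fun g q => D (fun w => g (R w)) (S q) := by
    refine ⟨fun q hq g g' hg hg' => ?_, fun q hq c => ?_, fun i g hg => ?_⟩
    · obtain ⟨w, hw, rfl⟩ := h.bij.surjOn hq
      obtain ⟨h1, h2, h3, g₂, h4, h5⟩ :=
        hD.1 w hw _ _ (h.pull w hw g hg) (h.pull w hw g' hg')
      simp only [hSR w hw]
      refine ⟨h1, h2, fun e => h3 ?_, ?_⟩
      · rw [← nf_eq hq] at e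
        rw [← nf_eq hw]
        exact (h.tendsto hw).eventually e
      · obtain ⟨g₃, h6, h7⟩ := h.push w hw g₂ h4
        refine ⟨g₃, h6, ?_⟩
        rw [← nf_eq hq, ← h.nf w hw]
        refine Filter.eventually_map.2 ?_
        rw [← nf_eq hw] at h5
        have h8 : ∀ᶠ q in P269C.nf C' w, q ∈ C'.fib y := by
          rw [nf_eq hw]; exact self_mem_nhdsWithin
        filter_upwards [h5, h7, h8] with q e1 e2 e3
        simp only [hSR q e3]
        rw [e1, e2]
    · obtain ⟨w, hw, rfl⟩ := h.bij.surjOn hq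
      simp only [hSR w hw]
      exact hD.2.1 w hw c
    · obtain ⟨j, h1, h2⟩ := hs i
      rw [← h2] at hg ⊢
      simp only [hSR _ h1]
      exact hD.2.2 j _ (h.pull _ h1 g hg)
  obtain ⟨g, hg, e⟩ := h.push p hp f hf
  have h1 := hC _ key (R p) (h.bij.mapsTo hp) g hg
  simp only [hSR p hp] at h1
  rw [← h1]
  refine (hD.1 p hp _ _ hf (h.pull p hp g hg)).2.2.1 ?_
  rw [← nf_eq hp]; exact e

end FB

end Vale.Agent.P269CT
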