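import Vale.Agent.P269CT.Stb
import Vale.Agent.P273.H949.QBub
import Vale.Agent.P273.H949.QNodeState

/-!
P269, block C: the stabilisation when the extra point meets a marked point or a node.
-/

set_option autoImplicit false
set_option linter.all false

noncomputable section

namespace Vale.Agent.P269CT

open Set Filter Topology Vale.Agent.P273.H183 Vale.Agent.P272.K Vale.Agent.P269C
open Vale.Agent.P273.H948 Vale.Agent.P273.H949 Vale.Agent.P273.H469

variable {L : Type} {m k : ℕ} {C : Fam L m} {σ : Cm k → C.X} {y₀ : Cm k}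

theorem dr_lin {E : Fam L k} {f a : E.X → ℂ} {p : E.X} {e c : ℂ}
    (h : ∀ᶠ q in nf E p, f q = e * a q + c) : Dr E f a p e := by
  have h1 := P269CK.Dr.add (P269CK.Dr.const_mul (P269CK.Dr.refl a p) e) (P269CK.Dr.const c a p)
  rw [mul_one, add_zero] at h1
  exact P269CK.Dr.congr h1 h EventuallyEq.rfl

/-- The extra point meets the marked point `i`. -/
theorem exists_bub [Finite L] (hC : C.IsStable) (hσ : HolAt C σ y₀) {i : L}
    (h0 : σ y₀ = C.s i (C.π (σ y₀))) {z : C.X → ℂ} (hh : C.hol z (σ y₀)) (hz : Co C z (σ y₀)) :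
    ∃ (S : Stb C σ y₀) (a : S.E.X → ℂ), ∀ o, o = none ∨ o = some i →
      S.E.hol a (S.E.s o y₀) ∧ Co S.E a (S.E.s o y₀) ∧ ∀ y ∈ S.E.B,
        Dr S.E (fun q => z (S.R q)) a (S.E.s o y) (z (σ y) - z (C.s i (C.π (σ y)))) := by
  obtain ⟨U₀, hp, co⟩ := isCoord_of hC hh hz
  obtain ⟨V, u, v, hV, -, hm, hu, -⟩ := co.model hp
  have u0 : ∀ q ∈ V, u q ≠ 0 := fun q hq => left_ne_zero_of_mul_eq_one (hm.eqn q hq)
  have ev : ∀ᶠ y in 𝓝 y₀, HolAt C σ y ∧ σ y ∈ V ∧ C.s i (C.π (σ y)) ∈ V ∧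
      ∀ j, j ≠ i → C.s j (C.π (σ y)) ≠ σ y := by
    refine (hσ.ev hC).and ((hσ.1.eventually (hm.isOpen.mem_nhds hV)).and
      (((hσ.mk hC (some i)).1.eventually (hm.isOpen.mem_nhds ?_)).and
        (eventually_all.2 fun j => ?_)))
    · change C.s i (C.π (σ y₀)) ∈ V
      rw [← h0]; exact hV
    · by_cases hj : j = i
      · exact Eventually.of_forall fun _ h => absurd hj h
      · refine (hσ.1.eventually (ev_ne_s hC (i := j) fun e => hj ?_)).mono fun _ h _ => h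
        exact s_inj hC (hC.2.2.1 _) (e.trans h0)
  obtain ⟨W, hW, oW, hy⟩ := eventually_nhds_iff.1 ev
  have hne : W.Nonempty := ⟨y₀, hy⟩
  have hσW : ∀ y ∈ W, HolAt C σ y := fun y hy => (hW y hy).1
  have h := pd_of hC oW hσW
  have a1 : ∀ y ∈ W, AnalyticAt ℂ (fun y => u (C.s i (C.π (σ y)))) y := fun y hy =>
    ((hσW y hy).mk hC (some i)).2 u (hm.hol_u (hW y hy).2.2.1)
  have a2 : ∀ y ∈ W, AnalyticAt ℂ (fun y => u (σ y) - u (C.s i (C.π (σ y)))) y := fun y hy =>
    ((hσW y hy).2 u (hm.hol_u (hW y hy).2.1)).sub (a1 y hy)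
  have p1 := fun y (hy : y ∈ W) o => pos_fst (σ := σ) hC hne hy o
  have p2 := fun y (hy : y ∈ W) o => pos_snd (σ := σ) hC hne hy o
  have coT := (coord_u (tot_model oW h.an hm)).shift
    (f := fun y => u (C.s i (C.π (σ y)))) fun x _ => a1 _ x.2.1
  have mU : ∀ y ∈ W, ∀ o, o = none ∨ o = some i →
      (pos C W σ hne o y).1.2 ∈ V ∧ u (pos C W σ hne o y).1.2 ≠ 0 := by
    rintro y hy o (rfl | rfl) <;> rw [p2 y hy]
    · exact ⟨(hW y hy).2.1, u0 _ (hW y hy).2.1⟩
    · exact ⟨(hW y hy).2.2.1, u0 _ (hW y hy).2.2.1⟩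
  have xi : ∀ y ∈ W, u (pos C W σ hne (some i) y).1.2 -
      u (C.s i (C.π (σ (pos C W σ hne (some i) y).1.1))) = 0 := fun y hy => by
    rw [p1 y hy, p2 y hy]; exact sub_self _
  let D : BubData h.F.S :=
    { U := {x | x.1.2 ∈ V ∧ u x.1.2 ≠ 0}
      ξ := fun x => u x.1.2 - u (C.s i (C.π (σ x.1.1)))
      t := fun y => u (σ y) - u (C.s i (C.π (σ y)))
      co := coT
      an := fun x _ => a2 _ x.2.1
      cl := closed_bub (S := h.F.S) coT (fun x => (a2 _ x.2.1).continuousAt) fun x _ =>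
        ⟨pos C W σ hne (some i) x.1.1, mU _ x.2.1 _ (Or.inr rfl), p1 _ x.2.1 _, xi _ x.2.1⟩ }
  let N : BubMove (st₀ h hne hσW) (some i) none :=
    { D := D
      c := y₀
      mem_c := hy
      iA := ⟨i, rfl⟩
      jA := by rintro ⟨j, hj⟩; cases hj
      mem_i := fun y hy => mU y hy _ (Or.inr rfl)
      mem_j := fun y hy => mU y hy _ (Or.inl rfl)
      ξ_i := xi
      ξ_j := fun y hy => by
        change u (pos C W σ hne none y).1.2 - u (C.s i (C.π (σ (pos C W σ hne none y).1.1))) = _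
        rw [p1 y hy, p2 y hy]; rfl
      zero := by
        change u (σ y₀) - u (C.s i (C.π (σ y₀))) = 0
        rw [← h0]; exact sub_self _
      off := fun o h1 h2 y hy => by
        cases o with
        | none => exact absurd rfl h2
        | some j =>
          have hj : j ≠ i := fun e => h1 (by rw [e])
          refine ⟨fun e => hj ?_, fun e => (hW y hy).2.2.2 j hj ?_⟩
          · exact s_inj hC (hC.2.2.1 _) ((p2 y hy _).symm.trans
              ((congrArg (fun x : h.F.S.X => x.1.2) e).trans (p2 y hy _)))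
          · exact (p2 y hy _).symm.trans
              ((congrArg (fun x : h.F.S.X => x.1.2) e).trans (p2 y hy _)) }
  have hZ : ∀ x ∈ D.modif.Z, x.1.2 = σ x.1.1 ∧ ¬ Gen C (σ x.1.1) := by
    rintro x ⟨hx, h1, h2⟩
    have e1 : x = pos C W σ hne (some i) x.1.1 := N.eq_of_ξ hx h1
    have e2 := N.eq_of_ξ (N.mem_j _ x.2.1) ((N.ξ_j _ x.2.1).trans h2)
    have e3 : pos C W σ hne none x.1.1 =
      pos C W σ hne (some i) (pos C W σ hne none x.1.1).1.1 := e2
    rw [p1 _ x.2.1] at e3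
    have e4 : σ x.1.1 = C.s i (C.π (σ x.1.1)) := (p2 _ x.2.1 none).symm.trans
      ((congrArg (fun x : h.F.S.X => x.1.2) e3).trans (p2 _ x.2.1 _))
    exact ⟨((congrArg (fun x : h.F.S.X => x.1.2) e1).trans (p2 _ x.2.1 _)).trans e4.symm,
      fun hg => hg.2 i e4.symm⟩
  have hm' : ∀ y ∈ W, ∀ o, o = none ∨ o = some i →
      ∃ w, N.s' o y = D.modif.ιN w ∧ D.a w ≠ OnePoint.infty := by
    rintro y hy o (rfl | rfl)
    · obtain ⟨w, h1, -, h2⟩ := N.s'_j_mem hy
      exact ⟨w, h1, fun e => coe_ne_infty 1 (h2.symm.trans e)⟩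
    · obtain ⟨w, h1, -, h2⟩ := N.s'_i_mem hy
      exact ⟨w, h1, fun e => coe_ne_infty 0 (h2.symm.trans e)⟩
  refine ⟨Stb.ofMod h hy D.modif BubData.fib N.s' (stable_of ((q_st₀ h hne hσW).bubState N))
    N.r_s' hZ, Function.extend D.modif.ιN D.fa 0, fun o ho => ?_⟩
  obtain ⟨w₀, e₀, f₀⟩ := hm' y₀ hy o ho
  have c₀ := co_new (F := h.F) (M := D.modif) (hF := BubData.fib) (s' := N.s') D.coord₁ f₀
  rw [← e₀] at c₀
  refine ⟨c₀.1, c₀.2, fun y hy' => ?_⟩
  obtain ⟨w, e, f⟩ := hm' y hy' o ho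
  have g1 := ev_ιN (F := h.F) (M := D.modif) D.coord₁.isOpen f
  rw [← e] at g1
  have g2 : D.modif.T.π (N.s' o y) = y := (N.sec' o y hy').1
  refine dr_lin (c := z (C.s i (C.π (σ y)))) ?_
  filter_upwards [nf_le _ _ g1, nf_fib _ _] with q ⟨w', h1, h2⟩ h3
  have h4 : D.modif.T.π q = y := h3.trans g2
  subst h2
  have h5 : (D.ρ w').1.1 = y := (π_ιN (F := h.F) (M := D.modif) w').symm.trans h4
  have h6 : u (D.ρ w').1.2 - u (C.s i (C.π (σ (D.ρ w').1.1))) =
      (u (σ (D.ρ w').1.1) - u (C.s i (C.π (σ (D.ρ w').1.1)))) * D.fa w' := (BubData.rel w').1 h1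
  have h7 : D.modif.r (D.modif.ιN w') = D.ρ w' := D.modif.rN w'
  have h8 := ext_ιN (F := h.F) (M := D.modif) D.fa w'
  rw [h5, hu, hu, hu] at h6
  refine (congrArg (fun x : h.F.S.X => z x.1.2) h7).trans
    (Eq.trans ?_ (congrArg (fun c => _ * c + _) h8).symm)
  linear_combination h6

/-- The extra point meets a node. -/
theorem exists_node [Finite L] (hC : C.IsStable) (hσ : HolAt C σ y₀) {U : Set C.X}
    {u v : C.X → ℂ} {t : Cm m → ℂ} (hm : Mo C U u v t) (hp : σ y₀ ∈ U) (hu : u (σ y₀) = 0)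
    (hv : v (σ y₀) = 0) : ∃ (S : Stb C σ y₀) (a : S.E.X → ℂ),
      S.E.hol a (S.E.s none y₀) ∧ Co S.E a (S.E.s none y₀) ∧ ∀ y ∈ S.E.B,
        Dr S.E (fun q => u (S.R q)) a (S.E.s none y) (u (σ y)) := by
  have ev : ∀ᶠ y in 𝓝 y₀, HolAt C σ y ∧ σ y ∈ U ∧ ∀ j, C.s j (C.π (σ y)) ≠ σ y := by
    refine (hσ.ev hC).and ((hσ.1.eventually (hm.isOpen.mem_nhds hp)).and
      (eventually_all.2 fun j => hσ.1.eventually (ev_ne_s hC (i := j) fun e => ?_)))
    have h1 := sp_s hC (hC.2.2.1 (σ y₀)) j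
    rw [e] at h1
    exact (h1 U u v t hm.chart hp).elim (· hu) (· hv)
  obtain ⟨W, hW, oW, hy⟩ := eventually_nhds_iff.1 ev
  have hne : W.Nonempty := ⟨y₀, hy⟩
  have hσW : ∀ y ∈ W, HolAt C σ y := fun y hy => (hW y hy).1
  have h := pd_of hC oW hσW
  have a1 : ∀ y ∈ W, AnalyticAt ℂ (fun y => u (σ y)) y := fun y hy =>
    (hσW y hy).2 u (hm.hol_u (hW y hy).2.1)
  have a2 : ∀ y ∈ W, AnalyticAt ℂ (fun y => v (σ y)) y := fun y hy =>
    (hσW y hy).2 v (hm.hol_v (hW y hy).2.1)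
  have p1 := fun y (hy : y ∈ W) o => pos_fst (σ := σ) hC hne hy o
  have p2 := fun y (hy : y ∈ W) o => pos_snd (σ := σ) hC hne hy o
  have mT := tot_model oW h.an hm
  have mU : ∀ y ∈ W, (pos C W σ hne none y).1.2 ∈ U := fun y hy => by
    rw [p2 y hy]; exact (hW y hy).2.1
  let D : NodeData h.F.S :=
    { U := {x | x.1.2 ∈ U}
      u := fun x => u x.1.2
      v := fun x => v x.1.2
      t := fun y => t (C.π (σ y))
      τ₀ := fun y => u (σ y)
      τ₁ := fun y => v (σ y)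
      mod := mT
      an₀ := fun x _ => a1 _ x.2.1
      an₁ := fun x _ => a2 _ x.2.1
      fac := fun x _ => by
        filter_upwards [oW.mem_nhds x.2.1] with y hy
        exact (hm.eqn _ (hW y hy).2.1).symm
      cl := closed_node (S := h.F.S) mT (fun x => (a1 _ x.2.1).continuousAt)
        (fun x => (a2 _ x.2.1).continuousAt) fun x h1 h2 =>
        ⟨pos C W σ hne none x.1.1, mU _ x.2.1, Prod.ext (p1 _ x.2.1 _) (Prod.ext
          ((congrArg u (p2 _ x.2.1 none)).trans h1) ((congrArg v (p2 _ x.2.1 none)).trans h2))⟩ }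
  let N : NodeMove (st₀ h hne hσW) none :=
    { D := D
      c := y₀
      K := {none}
      α := fun _ _ => 1
      mem_c := hy
      jK := rfl
      KA := by rintro _ rfl ⟨j, hj⟩; cases hj
      α_j := fun _ => rfl
      α_an := fun _ _ _ _ => analyticAt_const
      mem := by rintro _ rfl y hy; exact mU y hy
      rel_u := by
        rintro _ rfl y hy
        exact (congrArg u (p2 y hy none)).trans (mul_one _).symm
      rel_v := by
        rintro _ rfl y hy
        exact (one_mul _).trans (congrArg v (p2 y hy none))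
      zero₀ := hu
      zero₁ := hv
      node := fun x hx h1 h2 h3 => (h3.all hx mT).elim (· h1) (· h2)
      off := fun o h1 y hy e => by
        cases o with
        | none => exact h1 rfl
        | some j =>
          exact (hW y hy).2.2 j ((p2 y hy _).symm.trans
            ((congrArg (fun x : h.F.S.X => x.1.2) e).trans (p2 y hy _))) }
  have hZ : ∀ x ∈ D.modif.Z, x.1.2 = σ x.1.1 ∧ ¬ Gen C (σ x.1.1) := by
    intro x hx
    have e1 : x = pos C W σ hne none x.1.1 := N.eq_of_Z hx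
    exact ⟨(congrArg (fun x : h.F.S.X => x.1.2) e1).trans (p2 _ x.2.1 _), fun hg =>
      (hg.sp U u v t hm.chart (hW _ x.2.1).2.1).elim (· hx.2.2.2.1) (· hx.2.2.2.2)⟩
  have hm' : ∀ y ∈ W, ∃ w, N.s' none y = D.modif.ιN w ∧ D.a w ≠ OnePoint.infty ∧ D.fa w ≠ 0 := by
    intro y hy
    obtain ⟨w, h1, -, h2⟩ := N.s'_mem N.jK hy
    exact ⟨w, h1, fun e => coe_ne_infty 1 (h2.symm.trans e),
      fun e => one_ne_zero ((congrArg fv h2).symm.trans e)⟩
  refine ⟨Stb.ofMod h hy D.modif NodeData.fib N.s' (stable_of ((q_st₀ h hne hσW).nodeState N))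
    N.r_s' hZ, Function.extend D.modif.ιN D.fa 0, ?_⟩
  obtain ⟨w₀, e₀, f₀⟩ := hm' y₀ hy
  have c₀ := co_new (F := h.F) (M := D.modif) (hF := NodeData.fib) (s' := N.s')
    (NodeData.coord (D := D)) f₀
  rw [← e₀] at c₀
  refine ⟨c₀.1, c₀.2, fun y hy' => ?_⟩
  obtain ⟨w, e, f⟩ := hm' y hy'
  have g1 := ev_ιN (F := h.F) (M := D.modif) (NodeData.coord (D := D)).isOpen f
  rw [← e] at g1
  have g2 : D.modif.T.π (N.s' none y) = y := (N.sec' none y hy').1
  refine dr_lin (c := 0) ?_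
  filter_upwards [nf_le _ _ g1, nf_fib _ _] with q ⟨w', h1, h2⟩ h3
  have h4 : D.modif.T.π q = y := h3.trans g2
  subst h2
  have h5 : (D.ρ w').1.1 = y := (π_ιN (F := h.F) (M := D.modif) w').symm.trans h4
  have h6 : u (D.ρ w').1.2 = u (σ (D.ρ w').1.1) * D.fa w' := ((NodeData.rel w').1 h1.1).1
  have h7 : D.modif.r (D.modif.ιN w') = D.ρ w' := D.modif.rN w'
  have h8 := ext_ιN (F := h.F) (M := D.modif) D.fa w'
  rw [h5] at h6
  refine (congrArg (fun x : h.F.S.X => u x.1.2) h7).trans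
    (Eq.trans ?_ (congrArg (fun c => _ * c + _) h8).symm)
  linear_combination h6

end Vale.Agent.P269CT
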