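import Vale.Agent.P269CT.Sec
import Vale.Agent.P269CV.K2
import Vale.Agent.P273.H469.Sec

/-!
P269, block C: stable families whose generic fibres are the fibres of `C` with one more point.
-/

set_option autoImplicit false
set_option linter.all false

noncomputable section

namespace Vale.Agent.P269CT

open Set Filter Topology Vale.Agent.P273.H183 Vale.Agent.P272.K Vale.Agent.P269C
open Vale.Agent.P273.H948 Vale.Agent.P273.H949 Vale.Agent.P273.H469
open scoped ContDiff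

variable {L L' : Type} {m k : ℕ} {C : Fam L m} {W : Set (Cm k)} {σ : Cm k → C.X} {y₀ : Cm k}

/-- A stabilisation of the fibres with the extra point `σ y`, near `y₀`. -/
structure Stb (C : Fam L m) (σ : Cm k → C.X) (y₀ : Cm k) where
  /-- the stable family -/
  E : Fam (Option L) k
  /-- the contraction -/
  R : E.X → C.X
  st : E.IsStable
  mem : y₀ ∈ E.B
  rs : ∀ y ∈ E.B, ∀ o, R (E.s o y) = mk C (σ y) o
  fb : ∀ y ∈ E.B, Gen C (σ y) → FB E y C (C.π (σ y)) R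
  off : ∀ i z, σ y₀ ≠ C.s i (C.π (σ y₀)) → C.hol z (C.s i (C.π (σ y₀))) →
    Co C z (C.s i (C.π (σ y₀))) → E.hol (fun q => z (R q)) (E.s (some i) y₀) ∧
      Co E (fun q => z (R q)) (E.s (some i) y₀)

theorem Stb.key (S : Stb C σ y₀) {h : Hm (Option L)} (hh : IsPsi h) (o : Option L)
    {a : S.E.X → ℂ} (ha : S.E.hol a (S.E.s o y₀)) (hc : Co S.E a (S.E.s o y₀)) :
    ∃ v : Cm k → ℝ, ContDiffAt ℝ ∞ v y₀ ∧ 0 < v y₀ ∧ ∀ᶠ y in 𝓝 y₀, y ∈ S.E.B ∧ (Gen C (σ y) →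
      ∀ z (e : ℂ), Co C z (P269CT.mk C (σ y) o) → Dr S.E (fun q => z (S.R q)) a (S.E.s o y) e →
        H h C (σ y) o z = v y * ‖e‖ ^ 2) := by
  obtain ⟨h1, h2⟩ := hh.2 k S.E S.st y₀ S.mem o a ha hc
  refine ⟨_, h2, h1, ?_⟩
  filter_upwards [S.st.1.mem_nhds S.mem, (holAt_s S.st S.mem o).1.eventually
    (P269CK.co_ev (P269CK.chd S.st) ha hc)] with y hy h3
  refine ⟨hy, fun hg z e hz hd => ?_⟩
  have hf := S.fb y hy hg
  have h4 : Co S.E (fun q => z (S.R q)) (S.E.s o y) :=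
    (hf.co (π_s S.st hy o)).2 (by rw [S.rs y hy]; exact hz)
  have h5 : e ≠ 0 := P269CK.Dr.ne (P269CK.chd S.st) h4 h3 hd
  have h6 := hh.1 k m S.E (pt C (σ y)) y (C.π (σ y)) _
    ((hf.pt (σ y)).iso fun o _ => S.rs y hy o) o a (fun q => z (S.R q)) z e⁻¹
    (π_s S.st hy) h3 hz (fun _ => rfl) (P269CK.Dr.inv hd h5)
  have h7 : ‖e‖ ≠ 0 := norm_ne_zero_iff.2 h5
  rw [h6, H, norm_inv]
  field_simp

/-- The stabilisation at a generic point. -/
def Stb.gen (hC : C.IsStable) (hW : IsOpen W) (hy : y₀ ∈ W)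
    (hσ : ∀ y ∈ W, HolAt C σ y ∧ Gen C (σ y)) : Stb C σ y₀ where
  E := add C W σ ⟨y₀, hy⟩
  R x := x.1.2
  st := add_stable hC hW _ hσ
  mem := hy
  rs y hy o := congrArg Prod.snd (add_s hC _ hy o)
  fb y hy _ := add_fb hC hW _ (fun y hy => (hσ y hy).1) hy
  off i z _ h1 h2 := by
    have h3 := add_fb hC hW ⟨y₀, hy⟩ (fun y hy => (hσ y hy).1) hy
    have h4 := π_s (add_stable hC hW ⟨y₀, hy⟩ hσ) hy (some i)
    have h5 : ((add C W σ ⟨y₀, hy⟩).s (some i) y₀).1.2 = C.s i (C.π (σ y₀)) :=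
      congrArg Prod.snd (add_s hC _ hy (some i))
    rw [← h5] at h1 h2
    exact ⟨h3.pull _ h4 z h1, (h3.co h4).2 h2⟩

section modif

variable {F : PFam k} {N' : Surf k} {M : Modif F.S N'} {hF : M.Fib}
  {s : L → Cm k → F.S.X} {s' : L' → Cm k → M.T.X}

theorem tend_mod (x : M.T.X) :
    Tendsto M.r (nf (toFam (F.modify M hF) s') x) (nf (toFam F s) (M.r x)) :=
  M.cont_r.continuousAt.continuousWithinAt.tendsto_nhdsWithin fun q hq =>
    (M.πr q).trans ((show M.T.π q = M.T.π x from hq).trans (M.πr x).symm)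

theorem ev_off {x : M.T.X} (hx : M.r x ∉ M.Z) : ∀ᶠ q in 𝓝 x, M.r q ∉ M.Z :=
  M.cont_r.continuousAt (M.closed.isOpen_compl.mem_nhds hx)

/-- A modification does not change the fibres that do not meet the centre. -/
theorem fb_mod {y : Cm k} (hZ : ∀ x ∈ M.Z, F.S.π x ≠ y) :
    FB (toFam (F.modify M hF) s') y (toFam F s) y M.r := by
  have hm : ∀ x : M.T.X, M.T.π x = y → F.S.π (M.r x) = y := fun x hx => (M.πr x).trans hx
  have hz : ∀ x : M.T.X, M.T.π x = y → M.r x ∉ M.Z := fun x hx h => hZ _ h (hm x hx)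
  refine ⟨⟨hm, fun x hx x' hx' e => M.r_inj (hz x hx) (hz x' hx') e,
    fun p hp => ⟨hF.lift p, (hF.lift_π p).trans hp, hF.r_lift p⟩⟩, fun x hx => ?_,
    fun x _ f hf => M.pull x f hf, fun x hx f hf => ?_⟩
  · refine le_antisymm (tend_mod x) fun V hV => ?_
    have h1 : Tendsto hF.lift (nf (toFam F s) (M.r x)) (nf (toFam (F.modify M hF) s') x) := by
      have h2 := (hF.lift_cont (hz x hx)).continuousWithinAt.tendsto_nhdsWithin
        (s := {p | F.S.π p = F.S.π (M.r x)}) (t := {p | M.T.π p = M.T.π x})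
        fun q hq => (hF.lift_π q).trans ((show F.S.π q = F.S.π (M.r x) from hq).trans (M.πr x))
      rw [hF.lift_eq (hz x hx)] at h2
      exact h2
    filter_upwards [h1 (Filter.mem_map.1 hV)] with q hq
    have h3 : M.r (hF.lift q) ∈ V := hq
    exact (congrArg (· ∈ V) (hF.r_lift q)).mp h3
  · refine ⟨f ∘ hF.lift, hF.lift_hol (hz x hx) (by rw [hF.lift_eq (hz x hx)]; exact hf), ?_⟩
    filter_upwards [nf_le _ x (ev_off (hz x hx))] with q hq
    exact (congrArg f (hF.lift_eq hq)).symm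

theorem co_mod {x : M.T.X} (hx : M.r x ∉ M.Z) {z : F.S.X → ℂ} (hz : Co (toFam F s) z (M.r x)) :
    Co (toFam (F.modify M hF) s') (fun q => z (M.r q)) x := by
  obtain ⟨⟨g, hg, e⟩, U, hU, hi⟩ := hz
  refine ⟨⟨_, M.pull x g hg, (tend_mod x).eventually e⟩, M.r ⁻¹' U ∩ M.r ⁻¹' M.Zᶜ,
    inter_mem (tend_mod x hU) (nf_le (toFam (F.modify M hF) s') x (ev_off hx)),
    fun q hq q' hq' e => ?_⟩
  exact M.r_inj hq.2 hq'.2 (hi hq.1 hq'.1 e)

theorem ext_ιN (g : N'.X → ℂ) (w : N'.X) : Function.extend M.ιN g 0 (M.ιN w) = g w :=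
  M.embN.injective.extend_apply _ _ _

theorem ev_ιN {O : Set N'.X} (hO : IsOpen O) {w : N'.X} (hw : w ∈ O) :
    ∀ᶠ q in 𝓝 (M.ιN w), ∃ w' ∈ O, M.ιN w' = q :=
  (M.embN.isOpenMap O hO).mem_nhds ⟨w, hw, rfl⟩

theorem π_ιN (w : N'.X) : M.T.π (M.ιN w) = N'.π w := by rw [← M.πr, M.rN, M.hπ]

/-- Coordinates on the new part. -/
theorem co_new {O : Set N'.X} {g : N'.X → ℂ} (hg : IsCoord N'.π N'.hol O g) {w : N'.X}
    (hw : w ∈ O) : M.T.hol (M.ιN w) (Function.extend M.ιN g 0) ∧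
      Co (toFam (F.modify M hF) s') (Function.extend M.ιN g 0) (M.ιN w) := by
  have h1 : M.T.hol (M.ιN w) (Function.extend M.ιN g 0) := by
    rw [M.holN, show Function.extend M.ιN g 0 ∘ M.ιN = g from funext (ext_ιN g)]
    exact hg.hol_ξ hw
  have h0 : ∀ᶠ q in nf (toFam (F.modify M hF) s') (M.ιN w), ∃ w' ∈ O, M.ιN w' = q :=
    nf_le (toFam (F.modify M hF) s') _ (ev_ιN hg.isOpen hw)
  refine ⟨h1, ⟨_, h1, EventuallyEq.rfl⟩, _, h0.and (nf_fib _ _), ?_⟩
  rintro _ ⟨⟨a, ha, rfl⟩, h2⟩ _ ⟨⟨b, hb, rfl⟩, h3⟩ e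
  have h4 : M.T.π (M.ιN a) = M.T.π (M.ιN b) := h2.trans h3.symm
  have e' : g a = g b := (ext_ιN g a).symm.trans (e.trans (ext_ιN g b))
  rw [π_ιN, π_ιN] at h4
  exact congrArg M.ιN (hg.inj ha hb (Prod.ext h4 e'))

end modif

/-- The positions of all labels on the pull back. -/
def pos (C : Fam L m) (W : Set (Cm k)) (σ : Cm k → C.X) (hne : W.Nonempty) (o : Option L)
    (y : Cm k) : Tot C W fun y => C.π (σ y) := (add C W σ hne).s o y

theorem pos_val (hC : C.IsStable) (hne : W.Nonempty) {y : Cm k} (hy : y ∈ W) (o : Option L) :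
    (pos C W σ hne o y).1 = (y, mk C (σ y) o) := add_s hC hne hy o

theorem pos_snd (hC : C.IsStable) (hne : W.Nonempty) {y : Cm k} (hy : y ∈ W) (o : Option L) :
    (pos C W σ hne o y).1.2 = mk C (σ y) o := congrArg Prod.snd (add_s hC hne hy o)

theorem pos_fst (hC : C.IsStable) (hne : W.Nonempty) {y : Cm k} (hy : y ∈ W) (o : Option L) :
    (pos C W σ hne o y).1.1 = y := congrArg Prod.fst (add_s hC hne hy o)

/-- The stabilisation given by a modification of the pull back. -/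
def Stb.ofMod (h : PD C W fun y => C.π (σ y)) (hy : y₀ ∈ W) {N' : Surf k} (M : Modif h.F.S N')
    (hF : M.Fib) (s' : Option L → Cm k → M.T.X) (hst : (toFam (h.F.modify M hF) s').IsStable)
    (hrs : ∀ o y, M.r (s' o y) = pos C W σ ⟨y₀, hy⟩ o y)
    (hZ : ∀ x ∈ M.Z, x.1.2 = σ x.1.1 ∧ ¬ Gen C (σ x.1.1)) : Stb C σ y₀ where
  E := toFam (h.F.modify M hF) s'
  R x := (M.r x).1.2
  st := hst
  mem := hy
  rs y hy' o := (congrArg (fun x : h.F.S.X => x.1.2) (hrs o y)).trans (pos_snd h.st _ hy' o)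
  fb y hy' hg := (h.fb (fun o y => P269CT.mk C (σ y) o) (tot_ne C σ ⟨y₀, hy⟩) hy').comp
    (fb_mod (s := pos C W σ ⟨y₀, hy⟩) fun x hx e => (hZ x hx).2 (by
      have e' : x.1.1 = y := e
      rw [e']; exact hg))
  off i z h0 h1 h2 := by
    have h3 := h.fb (fun o y => P269CT.mk C (σ y) o) (tot_ne C σ ⟨y₀, hy⟩) hy
    have h4 : (M.r (s' (some i) y₀)).1.1 = y₀ := by rw [hrs]; exact pos_fst h.st _ hy _
    have h5 : (M.r (s' (some i) y₀)).1.2 = C.s i (C.π (σ y₀)) := by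
      rw [hrs]; exact pos_snd h.st _ hy _
    rw [← h5] at h1 h2
    refine ⟨M.pull _ _ (h3.pull _ h4 z h1),
      co_mod (F := h.F) (M := M) (s := pos C W σ ⟨y₀, hy⟩) (z := fun q => z q.1.2)
        (x := s' (some i) y₀) (fun hx => h0 ?_) ((h3.co h4).2 h2)⟩
    rw [← h5, (hZ _ hx).1, h4]

/-- The pull back as a state: the old labels are marked points. -/
def st₀ (h : PD C W fun y => C.π (σ y)) (hne : W.Nonempty) (hσ : ∀ y ∈ W, HolAt C σ y) :
    State h.S (pos C W σ hne) (range some) where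
  F := h.F
  r := id
  s := pos C W σ hne
  cont_r := continuous_id
  π_r _ := rfl
  pull _ _ h := h
  sec o := h.sec _ fun y hy => ⟨(hσ y hy).mk h.st o, π_mk h.st _ o⟩
  rs _ _ _ := rfl
  smooth := by
    rintro _ ⟨i, rfl⟩ y hy
    refine h.smooth ?_
    rw [pos_snd h.st hne hy]
    exact sp_s h.st (h.st.2.2.1 _) i
  inj := by
    rintro _ ⟨i, rfl⟩ _ ⟨j, rfl⟩ y hy e
    have e1 := congrArg (fun x : h.S.X => x.1.2) e
    simp only [pos_snd h.st hne hy] at e1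
    rw [s_inj h.st (h.st.2.2.1 _) e1]
  bij _ _ _ _ := bijOn_id _

theorem q_st₀ (h : PD C W fun y => C.π (σ y)) (hne : W.Nonempty) (hσ : ∀ y ∈ W, HolAt C σ y) :
    QStab (st₀ h hne hσ) := by
  intro y hy D hD
  exact h.noField (P := fun i y => C.s i (C.π (σ y))) (tot_ne C σ hne) hy
    (fun i => π_s h.st (h.st.2.2.1 _) i) (fun i => ⟨i, rfl⟩) D
    ⟨hD.1, hD.2.1, fun i f hf => hD.2.2 _ ⟨some i, ⟨i, rfl⟩, rfl⟩ f hf⟩

theorem stable_of {X₀ : Surf k} {Q : Option L → Cm k → X₀.X}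
    {τ : State X₀ Q (insert none (range some))} (h : QStab τ) : (toFam τ.F τ.s).IsStable := by
  have hA : ∀ o : Option L, o ∈ insert none (range some) := by
    intro o
    cases o with
    | none => exact mem_insert _ _
    | some i => exact mem_insert_of_mem _ ⟨i, rfl⟩
  refine isStable_toFam τ.F τ.s τ.sec (fun j => τ.smooth j (hA j))
    (fun i j => τ.inj i (hA i) j (hA j)) fun b hb => (h b hb).mono ?_
  rintro p ⟨i, -, e⟩
  exact ⟨i, e⟩

theorem isCoord_of (hC : C.IsStable) {z : C.X → ℂ} {p : C.X} (hh : C.hol z p) (hz : Co C z p) :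
    ∃ U, p ∈ U ∧ IsCoord C.π (fun p f => C.hol f p) U z := by
  obtain ⟨τ, hτ⟩ := P269CV.co_par2 hC hh hz
  obtain ⟨U, h1, h2, h3⟩ := eventually_nhds_iff.1 (hτ.ev hC hh)
  refine ⟨U, h3, h2, fun q hq q' hq' e => ?_, fun q hq => ?_, fun q hq g => ⟨fun hg => ?_, ?_⟩⟩
  · have e' : (C.π q, z q) = (C.π q', z q') := e
    rw [← (h1 q hq).2.base, e', (h1 q' hq').2.base]
  · rw [← (h1 q hq).2.map_eq hC (h1 q hq).1, Filter.map_map]
    refine (map_congr ?_).trans map_id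
    filter_upwards [(h1 q hq).2.right] with w hw
    exact Prod.ext hw.1 hw.2
  · refine ⟨_, (h1 q hq).2.an g hg, ?_⟩
    filter_upwards [(h1 q hq).2.left] with w hw
    simp only [Function.comp_apply, hw]
  · rintro ⟨G, hG, e⟩
    exact P269CV.hol_congr hC (P269CV.hol_an₁ hC G (h1 q hq).1 hG) e

end Vale.Agent.P269CT
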