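import Vale.Agent.P269CT.Mov
import Vale.Agent.P269CD.Defs

/-!
P269, block C, row T2: the metrics on the cotangent lines along the total space.
-/

set_option autoImplicit false
set_option linter.all false

noncomputable section

namespace Vale.Agent.P269CT

open Set Filter Topology Vale.Agent.P273.H183 Vale.Agent.P272.K Vale.Agent.P269C
open Vale.Agent.P273.H948 Vale.Agent.P273.H469
open scoped ContDiff

variable {L : Type} {m k : ℕ} {C : Fam L m} {σ : Cm k → C.X} {y₀ : Cm k} {h : Hm (Option L)}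

theorem exists_gen [Finite L] (hC : C.IsStable) (hσ : HolAt C σ y₀) (hg : Gen C (σ y₀)) :
    ∃ S : Stb C σ y₀, ∀ z, C.hol z (σ y₀) → Co C z (σ y₀) →
      S.E.hol (fun q => z (S.R q)) (S.E.s none y₀) ∧
        Co S.E (fun q => z (S.R q)) (S.E.s none y₀) := by
  obtain ⟨W, hW, oW, hy⟩ := eventually_nhds_iff.1
    ((hσ.ev hC).and (hσ.1.eventually ((isOpen_gen hC).mem_nhds hg)))
  refine ⟨Stb.gen hC oW hy hW, fun z h1 h2 => ?_⟩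
  set S := Stb.gen hC oW hy hW with hS
  have h3 := S.fb y₀ S.mem hg
  have h4 := π_s S.st S.mem none
  have h5 : S.R (S.E.s none y₀) = σ y₀ := S.rs y₀ S.mem none
  rw [← h5] at h1 h2
  exact ⟨h3.pull _ h4 z h1, (h3.co h4).2 h2⟩

theorem node_of_not_sp {p : C.X} (hp : ¬ Sp C p) :
    ∃ U u v t, Mo C U u v t ∧ p ∈ U ∧ u p = 0 ∧ v p = 0 := by
  simp only [Sp, not_forall, not_or, not_not] at hp
  obtain ⟨U, u, v, t, hU, hp, h1, h2⟩ := hp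
  exact ⟨U, u, v, t, mo_of hU, hp, h1, h2⟩

theorem exists_stb [Finite L] (hC : C.IsStable) (hσ : HolAt C σ y₀) : Nonempty (Stb C σ y₀) := by
  by_cases h1 : Sp C (σ y₀)
  · by_cases h2 : ∃ i, σ y₀ = C.s i (C.π (σ y₀))
    · obtain ⟨i, hi⟩ := h2
      obtain ⟨z, h3, h4⟩ := ex_co hC h1
      obtain ⟨S, -⟩ := exists_bub hC hσ hi h3 h4
      exact ⟨S⟩
    · obtain ⟨S, -⟩ := exists_gen hC hσ ((gen_iff hC).2 ⟨h1, fun i e => h2 ⟨i, e.symm⟩⟩)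
      exact ⟨S⟩
  · obtain ⟨U, u, v, t, hm, hp, hu, hv⟩ := node_of_not_sp h1
    obtain ⟨S, -⟩ := exists_node hC hσ hm hp hu hv
    exact ⟨S⟩

theorem ev_co_mk (hC : C.IsStable) (hσ : HolAt C σ y₀) (o : Option L) {z : C.X → ℂ}
    (h1 : C.hol z (mk C (σ y₀) o)) (h2 : Co C z (mk C (σ y₀) o)) :
    ∀ᶠ y in 𝓝 y₀, C.hol z (mk C (σ y) o) ∧ Co C z (mk C (σ y) o) :=
  (hσ.mk hC o).1.eventually
    ((P269CV.hol_ev hC h1).and (P269CK.co_ev (P269CK.chd hC) h1 h2))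

theorem met_same (S : Stb C σ y₀) (hh : IsPsi h) (hC : C.IsStable) (hσ : HolAt C σ y₀)
    (o : Option L) {z : C.X → ℂ} (h1 : C.hol z (mk C (σ y₀) o)) (h2 : Co C z (mk C (σ y₀) o))
    (h3 : S.E.hol (fun q => z (S.R q)) (S.E.s o y₀) ∧ Co S.E (fun q => z (S.R q)) (S.E.s o y₀)) :
    ∃ v : Cm k → ℝ, ContDiffAt ℝ ∞ v y₀ ∧ 0 < v y₀ ∧
      ∀ᶠ y in 𝓝 y₀, Gen C (σ y) → H h C (σ y) o z = v y := by
  obtain ⟨v, a1, a2, a3⟩ := S.key hh o h3.1 h3.2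
  refine ⟨v, a1, a2, ?_⟩
  filter_upwards [a3, ev_co_mk hC hσ o h1 h2] with y b1 b2 hg
  rw [b1.2 hg z 1 b2.2 (P269CK.Dr.refl _ _)]
  simp

/-- The extra point is away from the mark `i`. -/
theorem met_off [Finite L] (hh : IsPsi h) (hC : C.IsStable) (hσ : HolAt C σ y₀) (i : L)
    (z : C.X → ℂ) (h0 : σ y₀ ≠ C.s i (C.π (σ y₀))) (h1 : C.hol z (C.s i (C.π (σ y₀))))
    (h2 : Co C z (C.s i (C.π (σ y₀)))) : ∃ v : Cm k → ℝ, ContDiffAt ℝ ∞ v y₀ ∧ 0 < v y₀ ∧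
      ∀ᶠ y in 𝓝 y₀, Gen C (σ y) → H h C (σ y) (some i) z = v y := by
  obtain ⟨S⟩ := exists_stb hC hσ
  exact met_same S hh hC hσ (some i) h1 h2 (S.off i z h0 h1 h2)

/-- The extra point is generic. -/
theorem met_gen [Finite L] (hh : IsPsi h) (hC : C.IsStable) (hσ : HolAt C σ y₀)
    (hg : Gen C (σ y₀)) (z : C.X → ℂ) (h1 : C.hol z (σ y₀)) (h2 : Co C z (σ y₀)) :
    ∃ v : Cm k → ℝ, ContDiffAt ℝ ∞ v y₀ ∧ 0 < v y₀ ∧
      ∀ᶠ y in 𝓝 y₀, Gen C (σ y) → H h C (σ y) none z = v y := by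
  obtain ⟨S, hS⟩ := exists_gen hC hσ hg
  exact met_same S hh hC hσ none h1 h2 (hS z h1 h2)

/-- The extra point is at the mark `i`. -/
theorem met_on [Finite L] (hh : IsPsi h) (hC : C.IsStable) (hσ : HolAt C σ y₀) (i : L)
    (z : C.X → ℂ) (h0 : σ y₀ = C.s i (C.π (σ y₀))) (h1 : C.hol z (σ y₀)) (h2 : Co C z (σ y₀))
    (o : Option L) (ho : o = none ∨ o = some i) :
    ∃ v : Cm k → ℝ, ContDiffAt ℝ ∞ v y₀ ∧ 0 < v y₀ ∧ ∀ᶠ y in 𝓝 y₀, Gen C (σ y) →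
      H h C (σ y) o z = v y * ‖z (σ y) - z (C.s i (C.π (σ y)))‖ ^ 2 := by
  obtain ⟨S, a, hS⟩ := exists_bub hC hσ h0 h1 h2
  obtain ⟨v, a1, a2, a3⟩ := S.key hh o (hS o ho).1 (hS o ho).2.1
  have e : mk C (σ y₀) o = σ y₀ := by
    rcases ho with rfl | rfl
    · rfl
    · exact h0.symm
  refine ⟨v, a1, a2, ?_⟩
  filter_upwards [a3, ev_co_mk hC hσ o (e.symm ▸ h1) (e.symm ▸ h2)] with y b1 b2 hg
  exact b1.2 hg z _ b2.2 ((hS o ho).2.2 y b1.1)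

/-- The extra point is at a node. -/
theorem met_node [Finite L] (hh : IsPsi h) (hC : C.IsStable) (hσ : HolAt C σ y₀) {U : Set C.X}
    {u v : C.X → ℂ} {t : Cm m → ℂ} (hm : Mo C U u v t) (hp : σ y₀ ∈ U) (hu : u (σ y₀) = 0)
    (hv : v (σ y₀) = 0) : ∃ w : Cm k → ℝ, ContDiffAt ℝ ∞ w y₀ ∧ 0 < w y₀ ∧ ∀ᶠ y in 𝓝 y₀,
      Gen C (σ y) → u (σ y) ≠ 0 → H h C (σ y) none u = w y * ‖u (σ y)‖ ^ 2 := by
  obtain ⟨S, a, h1, h2, h3⟩ := exists_node hC hσ hm hp hu hv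
  obtain ⟨w, a1, a2, a3⟩ := S.key hh none h1 h2
  refine ⟨w, a1, a2, ?_⟩
  filter_upwards [a3, hσ.1.eventually (hm.isOpen.mem_nhds hp)] with y b1 b2 hg h0
  have : Nonempty C.X := ⟨σ y⟩
  exact b1.2 hg u _ (P269CK.co_chart hm b2 h0) (h3 y b1.1)

theorem met_all_on [Finite L] (hh : IsPsi h) (hC : C.IsStable) (hσ : HolAt C σ y₀) (i : L)
    (h0 : σ y₀ = C.s i (C.π (σ y₀))) (o : Option L) (ho : o = none ∨ o = some i) :
    ∃ (z : C.X → ℂ) (e : Cm k → ℂ) (v : Cm k → ℝ), ContDiffAt ℝ ∞ v y₀ ∧ 0 < v y₀ ∧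
      AnalyticAt ℂ e y₀ ∧ ∀ᶠ y in 𝓝 y₀, Gen C (σ y) → Sm C (C.π (σ y)) →
        C.hol z (mk C (σ y) o) ∧ Co C z (mk C (σ y) o) ∧ e y ≠ 0 ∧
          H h C (σ y) o z = v y * ‖e y‖ ^ 2 := by
  obtain ⟨z, h1, h2⟩ := ex_co hC (sp_s hC (hC.2.2.1 (σ y₀)) i)
  have h1' : C.hol z (σ y₀) := by rw [h0]; exact h1
  have h2' : Co C z (σ y₀) := by rw [h0]; exact h2
  obtain ⟨v, a1, a2, a3⟩ := met_on hh hC hσ i z h0 h1' h2' o ho
  obtain ⟨V, hV, co⟩ := isCoord_of hC h1' h2'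
  have e : mk C (σ y₀) o = σ y₀ := by
    rcases ho with rfl | rfl
    · rfl
    · exact h0.symm
  have hV' : mk C (σ y₀) (some i) ∈ V := by
    change C.s i (C.π (σ y₀)) ∈ V
    rw [← h0]; exact hV
  refine ⟨z, _, v, a1, a2, (hσ.2 z h1').sub ((hσ.mk hC (some i)).2 z h1), ?_⟩
  filter_upwards [a3, ev_co_mk hC hσ o (e.symm ▸ h1') (e.symm ▸ h2'),
    hσ.1.eventually (co.isOpen.mem_nhds hV),
    (hσ.mk hC (some i)).1.eventually (co.isOpen.mem_nhds hV')] with y b1 b2 b3 b4 hg _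
  refine ⟨b2.1, b2.2, fun e => hg.2 i (co.inj b4 b3 (Prod.ext (π_mk hC _ _) ?_)), b1 hg⟩
  exact (sub_eq_zero.1 e).symm

theorem met_all [Finite L] (hh : IsPsi h) (hC : C.IsStable) (hσ : HolAt C σ y₀) (o : Option L) :
    ∃ (z : C.X → ℂ) (e : Cm k → ℂ) (v : Cm k → ℝ), ContDiffAt ℝ ∞ v y₀ ∧ 0 < v y₀ ∧
      AnalyticAt ℂ e y₀ ∧ ∀ᶠ y in 𝓝 y₀, Gen C (σ y) → Sm C (C.π (σ y)) →
        C.hol z (mk C (σ y) o) ∧ Co C z (mk C (σ y) o) ∧ e y ≠ 0 ∧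
          H h C (σ y) o z = v y * ‖e y‖ ^ 2 := by
  have one : ∀ z, C.hol z (mk C (σ y₀) o) → Co C z (mk C (σ y₀) o) →
      (∃ v : Cm k → ℝ, ContDiffAt ℝ ∞ v y₀ ∧ 0 < v y₀ ∧
        ∀ᶠ y in 𝓝 y₀, Gen C (σ y) → H h C (σ y) o z = v y) →
      ∃ (z : C.X → ℂ) (e : Cm k → ℂ) (v : Cm k → ℝ), ContDiffAt ℝ ∞ v y₀ ∧ 0 < v y₀ ∧
        AnalyticAt ℂ e y₀ ∧ ∀ᶠ y in 𝓝 y₀, Gen C (σ y) → Sm C (C.π (σ y)) →
          C.hol z (mk C (σ y) o) ∧ Co C z (mk C (σ y) o) ∧ e y ≠ 0 ∧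
            H h C (σ y) o z = v y * ‖e y‖ ^ 2 := by
    rintro z h1 h2 ⟨v, a1, a2, a3⟩
    refine ⟨z, fun _ => 1, v, a1, a2, analyticAt_const, ?_⟩
    filter_upwards [a3, ev_co_mk hC hσ o h1 h2] with y b1 b2 hg _
    exact ⟨b2.1, b2.2, one_ne_zero, by rw [b1 hg]; simp⟩
  cases o with
  | some i =>
    by_cases h0 : σ y₀ = C.s i (C.π (σ y₀))
    · exact met_all_on hh hC hσ i h0 _ (Or.inr rfl)
    · obtain ⟨z, h1, h2⟩ := ex_co hC (sp_s hC (hC.2.2.1 (σ y₀)) i)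
      exact one z h1 h2 (met_off hh hC hσ i z h0 h1 h2)
  | none =>
    by_cases h1 : Sp C (σ y₀)
    · by_cases h2 : ∃ i, σ y₀ = C.s i (C.π (σ y₀))
      · obtain ⟨i, hi⟩ := h2
        exact met_all_on hh hC hσ i hi _ (Or.inl rfl)
      · obtain ⟨z, h3, h4⟩ := ex_co hC h1
        exact one z h3 h4
          (met_gen hh hC hσ ((gen_iff hC).2 ⟨h1, fun i e => h2 ⟨i, e.symm⟩⟩) z h3 h4)
    · obtain ⟨U, u, v, t, hm, hp, hu, hv⟩ := node_of_not_sp h1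
      obtain ⟨w, a1, a2, a3⟩ := met_node hh hC hσ hm hp hu hv
      refine ⟨u, fun y => u (σ y), w, a1, a2, hσ.2 u (hm.hol_u hp), ?_⟩
      filter_upwards [a3, hσ.1.eventually (hm.isOpen.mem_nhds hp),
        (hσ.π hC).continuousAt.eventually (node_near (S := sf C hC) hm hp hu hv)]
        with y b1 b2 b3 hg hs
      have h0 : u (σ y) ≠ 0 := by
        intro e
        obtain ⟨x, hx, e1⟩ := b3 (by rw [← hm.eqn _ b2, e, zero_mul])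
        exact (hs x (congrArg (fun a : Amb m => a.1) e1) U u v t hm.chart hx).elim
          (· (congrArg (fun a : Amb m => a.2.1) e1)) (· (congrArg (fun a : Amb m => a.2.2) e1))
      have : Nonempty C.X := ⟨σ y⟩
      exact ⟨hm.hol_u b2, P269CK.co_chart hm b2 h0, h0, b1 hg h0⟩

/-- **Row T2.** -/
theorem t2 : P269CD.T2 :=
  ⟨fun hh hC hσ o => met_all hh hC hσ.self_of_nhds o,
    fun hh hC hσ i z => met_off hh hC hσ.self_of_nhds i z,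
    fun hh hC hσ i z => met_on hh hC hσ.self_of_nhds i z⟩

end Vale.Agent.P269CT
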